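import Vale.Agent.P312.LS

/-! Closure properties of `LS`. -/

namespace Vale.Agent.P312

variable {σ : Type} {F A B C D E G H : Fn σ}

lemma LS.sub2 (hF : LS F) (hA : LS A) (hB : LS B) :
    LS fun x e => F x (cons (A x e) (cons (B x e) e)) :=
  hB.lett ((hA.ren (· + 1)).lett hF)

lemma LS.sub3 (hF : LS F) (hA : LS A) (hB : LS B) (hC : LS C) :
    LS fun x e => F x (cons (A x e) (cons (B x e) (cons (C x e) e))) :=
  hC.lett (hF.sub2 (hA.ren (· + 1)) (hB.ren (· + 1)))

lemma LS.sub4 (hF : LS F) (hA : LS A) (hB : LS B) (hC : LS C) (hD : LS D) :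
    LS fun x e => F x (cons (A x e) (cons (B x e) (cons (C x e) (cons (D x e) e)))) :=
  hD.lett (hF.sub3 (hA.ren (· + 1)) (hB.ren (· + 1)) (hC.ren (· + 1)))

lemma LS.sub5 (hF : LS F) (hA : LS A) (hB : LS B) (hC : LS C) (hD : LS D) (hE : LS E) :
    LS fun x e => F x (cons (A x e) (cons (B x e) (cons (C x e) (cons (D x e) (cons (E x e) e))))) :=
  hE.lett (hF.sub4 (hA.ren (· + 1)) (hB.ren (· + 1)) (hC.ren (· + 1)) (hD.ren (· + 1)))

lemma LS.sub6 (hF : LS F) (hA : LS A) (hB : LS B) (hC : LS C) (hD : LS D) (hE : LS E) (hG : LS G) :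
    LS fun x e => F x (cons (A x e) (cons (B x e) (cons (C x e) (cons (D x e) (cons (E x e)
      (cons (G x e) e)))))) :=
  hG.lett (hF.sub5 (hA.ren (· + 1)) (hB.ren (· + 1)) (hC.ren (· + 1)) (hD.ren (· + 1))
    (hE.ren (· + 1)))

lemma LS.sub7 (hF : LS F) (hA : LS A) (hB : LS B) (hC : LS C) (hD : LS D) (hE : LS E) (hG : LS G)
    (hH : LS H) :
    LS fun x e => F x (cons (A x e) (cons (B x e) (cons (C x e) (cons (D x e) (cons (E x e)
      (cons (G x e) (cons (H x e) e))))))) :=
  hH.lett (hF.sub6 (hA.ren (· + 1)) (hB.ren (· + 1)) (hC.ren (· + 1)) (hD.ren (· + 1))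
    (hE.ren (· + 1)) (hG.ren (· + 1)))

instance LS.const (n : ℕ) : LS (σ := σ) fun _ _ => n := by
  induction n with
  | zero => exact LS.zero
  | succ n ih => exact ih.succ

/-- A two-argument function given by primitive recursion with values bounded by `M ^ 2`. -/
lemma LS.bin {I S : Fn σ} (hI : LS I) (hS : LS S) (g : ℕ → ℕ → ℕ)
    (h0 : ∀ x e, g (e 0) 0 = I x e)
    (h1 : ∀ x e n, g (e 0) (n + 1) = S x (cons (g (e 0) n) (cons n e)))
    (hb : ∀ M a n, 2 ≤ M → a ≤ M → n ≤ M → g a n ≤ M ^ 2) (hA : LS A) (hB : LS B) :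
    LS fun x e => g (A x e) (B x e) := by
  have e : ∀ x e n, rc n (I x e) (fun i s => S x (cons s (cons i e))) = g (e 0) n := by
    intro x e n
    induction n with
    | zero => exact (h0 x e).symm
    | succ n ih => rw [rc_succ, ih, h1 x]
  have := (LS.prec (LS.var 1) hI hS 2 fun x M v hM hv n hn => by
    rw [e]; exact hb M _ _ hM (hv 0) (hn.trans (hv 1))).of_eq (G := fun _ e => g (e 0) (e 1))
    fun x v => (e x v _).symm
  exact this.sub2 hA hB

instance LS.add [hA : LS A] [hB : LS B] : LS fun x e => A x e + B x e :=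
  LS.bin (LS.var 0) (LS.var 0).succ (· + ·) (fun _ _ => rfl) (fun _ _ _ => rfl)
    (fun M a n _ _ _ => by nlinarith) hA hB

lemma LS.pred (hA : LS A) : LS fun x e => A x e - 1 :=
  LS.bin LS.zero (LS.var 1) (fun _ n => n - 1) (fun _ _ => rfl) (fun _ _ _ => rfl)
    (fun M a n _ _ _ => by have : n - 1 ≤ M := by omega
                           nlinarith) hA hA

instance LS.sub [hA : LS A] [hB : LS B] : LS fun x e => A x e - B x e :=
  LS.bin (LS.var 0) (LS.var 0).pred (· - ·) (fun _ _ => rfl) (fun _ _ _ => rfl)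
    (fun M a n _ _ _ => by have : a - n ≤ M := by omega
                           nlinarith) hA hB

instance LS.mul [hA : LS A] [hB : LS B] : LS fun x e => A x e * B x e :=
  LS.bin (S := fun _ e => e 0 + e 2) LS.zero (by infer_instance) (· * ·) (fun _ _ => rfl) (fun _ _ _ => rfl)
    (fun M a n _ _ _ => by nlinarith) hA hB

instance LS.imin [LS A] [LS B] : LS fun x e => min (A x e) (B x e) :=
  LS.of_eq (F := fun x e => A x e - (A x e - B x e)) (by infer_instance) fun _ _ => by omega

open Classical in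
/-- Predicates decidable in logarithmic space. -/
class LP (P : List σ → (ℕ → ℕ) → Prop) : Prop where
  out : LS fun x e => if P x e then 1 else 0

variable {P Q : List σ → (ℕ → ℕ) → Prop}

instance LS.ite {d : ∀ x e, Decidable (P x e)} [hP : LP P] [LS A] [LS B] :
    LS fun x e => @ite _ (P x e) (d x e) (A x e) (B x e) := by
  have : LS fun x e => if P x e then 1 else 0 := hP.out.of_eq fun x e => by congr
  exact LS.of_eq (F := fun x e => (if P x e then 1 else 0) * A x e + (1 - if P x e then 1 else 0) * B x e)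
    (by infer_instance) fun x e => by by_cases h : P x e <;> simp [h]

lemma LP.of (hF : LS F) (h : ∀ x e, (P x e → F x e = 1) ∧ (¬P x e → F x e = 0)) : LP P :=
  ⟨hF.of_eq fun x e => by by_cases h' : P x e <;> simp [h', h x e]⟩

lemma LP.of_iff (hQ : LP Q) (h : ∀ x e, P x e ↔ Q x e) : LP P := by
  have : P = Q := by funext x e; exact propext (h x e)
  rwa [this]

instance LP.le [LS A] [LS B] : LP fun x e => A x e ≤ B x e :=
  LP.of (F := fun x e => 1 - (A x e - B x e)) (by infer_instance) fun _ _ => by omega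

instance LP.not [LP P] : LP fun x e => ¬P x e := by
  classical
  exact LP.of (F := fun x e => if P x e then 0 else 1) (by infer_instance) fun x e => by simp

instance LP.and [LP P] [LP Q] : LP fun x e => P x e ∧ Q x e := by
  classical
  exact LP.of (F := fun x e => if P x e then (if Q x e then 1 else 0) else 0) (by infer_instance)
    fun x e => by by_cases h : P x e <;> simp [h]

instance LP.or [LP P] [LP Q] : LP fun x e => P x e ∨ Q x e :=
  LP.of_iff (Q := fun x e => ¬(¬P x e ∧ ¬Q x e)) (by infer_instance) fun x e => by tauto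

instance LP.imp [LP P] [LP Q] : LP fun x e => P x e → Q x e :=
  LP.of_iff (Q := fun x e => ¬(P x e ∧ ¬Q x e)) (by infer_instance) fun x e => by tauto

instance LP.lt [LS A] [LS B] : LP fun x e => A x e < B x e :=
  LP.of_iff (Q := fun x e => ¬B x e ≤ A x e) (by infer_instance) fun x e => by omega

instance LP.eq [LS A] [LS B] : LP fun x e => A x e = B x e :=
  LP.of_iff (Q := fun x e => A x e ≤ B x e ∧ B x e ≤ A x e) (by infer_instance) fun x e => by omega

instance LP.ne [LS A] [LS B] : LP fun x e => A x e ≠ B x e :=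
  LP.of_iff (Q := fun x e => ¬A x e = B x e) (by infer_instance) fun x e => Iff.rfl

lemma succ_div' (a b : ℕ) : (a + 1) / b = if (a / b + 1) * b = a + 1 then a / b + 1 else a / b := by
  rw [Nat.succ_div]
  have h : b ∣ a + 1 ↔ (a / b + 1) * b = a + 1 := by
    constructor
    · intro h
      have := Nat.succ_div_of_dvd h
      rw [← this]; exact Nat.div_mul_cancel h
    · intro h; exact Dvd.intro_left _ h
  simp only [h]; split_ifs <;> rfl

instance LS.div [hA : LS A] [hB : LS B] : LS fun x e => A x e / B x e :=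
  LS.bin (S := fun _ e => if (e 0 + 1) * e 2 = e 1 + 1 then e 0 + 1 else e 0) LS.zero (by infer_instance)
    (fun b a => a / b) (fun _ _ => by simp) (fun _ _ _ => succ_div' _ _)
    (fun M a n _ _ _ => by have := Nat.div_le_self n a
                           nlinarith) hB hA

instance LS.mod [LS A] [LS B] : LS fun x e => A x e % B x e :=
  LS.of_eq (F := fun x e => A x e - B x e * (A x e / B x e)) (by infer_instance) fun _ _ => Nat.mod_def _ _

lemma sqrt_succ' (n : ℕ) : Nat.sqrt (n + 1) =
    if (Nat.sqrt n + 1) * (Nat.sqrt n + 1) ≤ n + 1 then Nat.sqrt n + 1 else Nat.sqrt n := by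
  have h1 := Nat.sqrt_succ_le_succ_sqrt n
  have h2 := Nat.sqrt_le_sqrt (Nat.le_succ n)
  simp only [← Nat.le_sqrt, Nat.succ_eq_add_one] at *
  split_ifs <;> omega

instance LS.isqrt [hA : LS A] : LS fun x e => Nat.sqrt (A x e) :=
  LS.bin (S := fun _ e => if (e 0 + 1) * (e 0 + 1) ≤ e 1 + 1 then e 0 + 1 else e 0) LS.zero
    (by infer_instance) (fun _ a => Nat.sqrt a) (fun _ _ => by simp) (fun _ _ _ => sqrt_succ' _)
    (fun M a n _ _ _ => by have := Nat.sqrt_le_self n
                           nlinarith) hA hA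

instance LS.unpair1 [LS A] : LS fun x e => (A x e).unpair.1 :=
  LS.of_eq (F := fun x e => if A x e - (A x e).sqrt * (A x e).sqrt < (A x e).sqrt then
    A x e - (A x e).sqrt * (A x e).sqrt else (A x e).sqrt) (by infer_instance) fun x e => by
      simp only [Nat.unpair]; split_ifs <;> rfl

instance LS.unpair2 [LS A] : LS fun x e => (A x e).unpair.2 :=
  LS.of_eq (F := fun x e => if A x e - (A x e).sqrt * (A x e).sqrt < (A x e).sqrt then
    (A x e).sqrt else A x e - (A x e).sqrt * (A x e).sqrt - (A x e).sqrt) (by infer_instance) fun x e => by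
      simp only [Nat.unpair]; split_ifs <;> rfl

def tl (e : ℕ → ℕ) : ℕ → ℕ := fun i => e (i + 1)

instance LS.itl {h : List σ → (ℕ → ℕ) → ℕ → ℕ} (i : ℕ) [H : LS fun x e => h x e (i + 1)] :
    LS fun x e => tl (h x e) i := H

/-- Bounded loop with values clamped to `W`. -/
def lp (N a W : ℕ) (f : ℕ → ℕ → ℕ) : ℕ := rc N a fun i s => min (f i s) W

@[simp] lemma lp_zero (a W f) : lp 0 a W f = a := rfl
lemma lp_succ (N a W f) : lp (N + 1) a W f = min (f N (lp N a W f)) W := rfl

instance LS.ilp {f : List σ → (ℕ → ℕ) → ℕ → ℕ → ℕ} [hA : LS A] [hB : LS B] [hC : LS C]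
    [hf : LS fun x e => f x (tl (tl e)) (e 1) (e 0)] :
    LS fun x e => lp (A x e) (B x e) (C x e) (f x e) := by
  obtain ⟨c, b1, -⟩ := id hB
  obtain ⟨d, b2, -⟩ := id hC
  have := hC.ren (· + 2)
  refine LS.prec (S := fun x e => min (f x (tl (tl e)) (e 1) (e 0)) (C x fun i => e (i + 2)))
    hA hB (by infer_instance) (c + d) fun x M e hM he n _ => ?_
  cases n with
  | zero => exact (b1 x M e hM he).trans (pow_mono hM (by omega))
  | succ n => exact (min_le_right _ _).trans ((b2 x M e hM he).trans (pow_mono hM (by omega)))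

lemma lp_ind {a W : ℕ} {f : ℕ → ℕ → ℕ} (g : ℕ → ℕ) (N : ℕ) (h0 : g 0 = a)
    (h : ∀ i < N, f i (g i) = g (i + 1) ∧ g (i + 1) ≤ W) : lp N a W f = g N := by
  induction N with
  | zero => exact h0.symm
  | succ N ih =>
    rw [lp_succ, ih fun i hi => h i (by omega), (h N (by omega)).1, min_eq_left (h N (by omega)).2]

instance LS.shr [hA : LS A] [hB : LS B] [hC : LS C] : LS fun x e => A x e / B x e ^ C x e :=
  (LS.of_eq (F := fun _ e => lp (e 2) (e 0) (e 0) fun _ s => s / e 1)
    (G := fun _ e => e 0 / e 1 ^ e 2)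
    (by infer_instance) fun _ e => (lp_ind (fun i => e 0 / e 1 ^ i) _ (by simp) fun i _ =>
      ⟨by rw [Nat.div_div_eq_div_mul, pow_succ], Nat.div_le_self _ _⟩).symm).sub3 hA hB hC

def dig (z b k : ℕ) : ℕ := z / b ^ k % b

instance LS.idig [LS A] [LS B] [LS C] : LS fun x e => dig (A x e) (B x e) (C x e) := by
  unfold dig; infer_instance

/-- Capped power. -/
def cp (W b k : ℕ) : ℕ := min (b ^ k) W

instance LS.icp [hA : LS A] [hB : LS B] [hC : LS C] : LS fun x e => cp (A x e) (B x e) (C x e) :=
  (LS.of_eq (F := fun _ e => lp (e 2) (min 1 (e 0)) (e 0) fun _ s => s * e 1)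
    (G := fun _ e => cp (e 0) (e 1) (e 2))
    (by infer_instance) fun _ e => by
      unfold cp
      induction e 2 with
      | zero => simp
      | succ n ih =>
        rw [lp_succ, ← ih, pow_succ]
        rcases le_total (e 1 ^ n) (e 0) with h | h
        · rw [min_eq_left h]
        · rw [min_eq_right h]
          rcases Nat.eq_zero_or_pos (e 1) with h0 | h0
          · simp [h0]
          · rw [min_eq_right (by nlinarith), min_eq_right (by nlinarith)]).sub3 hA hB hC

def rd (z o l : ℕ) : ℕ := z / 2 ^ o % 2 ^ l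

instance LS.ird [LS A] [LS B] [LS C] : LS fun x e => rd (A x e) (B x e) (C x e) :=
  LS.of_eq (F := fun x e => A x e / 2 ^ B x e % cp (A x e + 1) 2 (C x e))
    (by infer_instance) fun x e => by
      unfold rd cp
      have := Nat.div_le_self (A x e) (2 ^ B x e)
      rcases le_total (2 ^ C x e) (A x e + 1) with h | h
      · rw [min_eq_left h]
      · rw [min_eq_right h, Nat.mod_eq_of_lt (by omega), Nat.mod_eq_of_lt (by omega)]

instance LP.testBit [LS A] [LS B] : LP fun x e => (A x e).testBit (B x e) = true :=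
  LP.of_iff (Q := fun x e => A x e / 2 ^ B x e % 2 = 1) (by infer_instance) fun x e => by
    simp [Nat.testBit_eq_decide_div_mod_eq]

instance LP.ball {R : List σ → (ℕ → ℕ) → ℕ → Prop} [LS A] [hR : LP fun x e => R x (tl e) (e 0)] :
    LP fun x e => ∀ i < A x e, R x e i := by
  classical
  have : LP fun x e => R x (tl (tl e)) (e 1) := ⟨hR.out.ren (· + 1)⟩
  refine LP.of (F := fun x e => lp (A x e) 1 1 fun i s => if R x e i then s else 0) (by infer_instance)
    fun x e => ?_
  rw [lp_ind (fun n => if ∀ i < n, R x e i then 1 else 0) _ (by simp) fun i _ =>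
    ⟨by simp only [Nat.forall_lt_succ_right]; by_cases h : R x e i <;> simp [h], by split_ifs <;> simp⟩]
  exact ⟨fun h => if_pos h, fun h => if_neg h⟩

def tab (n : ℕ) (f : ℕ → ℕ) (y : ℕ) : ℕ := if y < n then f y else 0

instance LS.itab (n : ℕ) (f : ℕ → ℕ) [LS A] : LS fun x e => tab n f (A x e) := by
  induction n with
  | zero => exact LS.zero.of_eq fun _ _ => by simp [tab]
  | succ n ih =>
    refine LS.of_eq (F := fun x e => if A x e = n then f n else tab n f (A x e))
      (by infer_instance) fun x e => ?_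
    unfold tab
    split_ifs <;> first | omega | simp_all

/-- The number with base `b` digits `f 0, ..., f (N - 1)` (clamped to `W`). -/
def bld (W b N : ℕ) (f : ℕ → ℕ) : ℕ := lp N 0 W fun i s => s * b + f (N - 1 - i)

instance LS.ibld {f : List σ → (ℕ → ℕ) → ℕ → ℕ} [hA : LS A] [hB : LS B] [hC : LS C]
    [hf : LS fun x e => f x (tl e) (e 0)] : LS fun x e => bld (A x e) (B x e) (C x e) (f x e) := by
  have h1 : LS fun x e => B x (tl (tl e)) := hB.ren (· + 2)
  have h2 : LS fun x e => C x (tl (tl e)) := hC.ren (· + 2)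
  have h3 : LS fun x e => f x (tl (tl e)) (C x (tl (tl e)) - 1 - e 1) :=
    LS.lett (H := fun x e => C x (tl (tl e)) - 1 - e 1) (by infer_instance) (hf.ren (cons 0 (· + 3)))
  unfold bld
  infer_instance

def sumM (N p : ℕ) (f : ℕ → ℕ) : ℕ := lp N 0 p fun i s => (s + f i) % p

def prodM (N p : ℕ) (f : ℕ → ℕ) : ℕ := lp N 1 p fun i s => s * f i % p

instance LS.isumM {f : List σ → (ℕ → ℕ) → ℕ → ℕ} [hA : LS A] [hB : LS B]
    [hf : LS fun x e => f x (tl e) (e 0)] : LS fun x e => sumM (A x e) (B x e) (f x e) := by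
  have h1 : LS fun x e => B x (tl (tl e)) := hB.ren (· + 2)
  have h3 : LS fun x e => f x (tl (tl e)) (e 1) := hf.ren (· + 1)
  unfold sumM
  infer_instance

instance LS.iprodM {f : List σ → (ℕ → ℕ) → ℕ → ℕ} [hA : LS A] [hB : LS B]
    [hf : LS fun x e => f x (tl e) (e 0)] : LS fun x e => prodM (A x e) (B x e) (f x e) := by
  have h1 : LS fun x e => B x (tl (tl e)) := hB.ren (· + 2)
  have h3 : LS fun x e => f x (tl (tl e)) (e 1) := hf.ren (· + 1)
  unfold prodM
  infer_instance

/-- Code of the input symbol at a position of the input tape. -/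
lemma LS.inCode [Fintype σ] (f : InSym σ → ℕ) (hA : LS A) : LS fun x e => f (inAt x (A x e)) := by
  classical
  have key : ∀ s : Finset (InSym σ), LS fun x e => ∑ y ∈ s, (if inAt x (A x e) = y then 1 else 0) * f y := by
    intro s
    induction s using Finset.induction_on with
    | empty => exact LS.zero
    | insert y s hy ih =>
      have := hA.inp fun z => decide (z = y)
      exact LS.of_eq (F := fun x e => (if decide (inAt x (A x e) = y) = true then 1 else 0) * f y +
        ∑ y ∈ s, (if inAt x (A x e) = y then 1 else 0) * f y) (by infer_instance) fun x e => by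
          rw [Finset.sum_insert hy]; simp
  refine (key (insert .lft (insert .rgt (Finset.univ.image InSym.sym)))).of_eq fun x e => ?_
  simp only [ite_mul, one_mul, zero_mul, Finset.sum_ite_eq]
  rw [if_pos (by cases inAt x (A x e) <;> simp)]

/-! ### Specifications -/

lemma bld_spec {W b N : ℕ} {f : ℕ → ℕ} (hf : ∀ k < N, f k < b) (hW : b ^ N ≤ W) :
    bld W b N f < b ^ N ∧ ∀ k < N, dig (bld W b N f) b k = f k := by
  have key : ∀ n ≤ N, lp n 0 W (fun i s => s * b + f (N - 1 - i)) < b ^ n ∧
      ∀ k < n, dig (lp n 0 W fun i s => s * b + f (N - 1 - i)) b k = f (N - n + k) := by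
    intro n
    induction n with
    | zero => simp
    | succ n ih =>
      intro hn
      obtain ⟨h1, h2⟩ := ih (by omega)
      have h3 := hf (N - 1 - n) (by omega)
      set s := lp n 0 W fun i s => s * b + f (N - 1 - i)
      have h4 : s * b + f (N - 1 - n) < b ^ (n + 1) := by rw [pow_succ]; nlinarith
      have h5 : b ^ (n + 1) ≤ b ^ N := Nat.pow_le_pow_right (by omega) hn
      rw [lp_succ, min_eq_left (h4.le.trans (h5.trans hW))]
      refine ⟨h4, fun k hk => ?_⟩
      rcases k with _ | k
      · simp only [dig, pow_zero, Nat.div_one, Nat.mul_add_mod_of_lt h3]; congr 1; omega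
      · rw [show N - (n + 1) + (k + 1) = N - n + k by omega, ← h2 k (by omega), dig, dig, pow_succ',
          ← Nat.div_div_eq_div_mul, show (s * b + f (N - 1 - n)) / b = s by
            rw [mul_comm, Nat.mul_add_div (by omega), Nat.div_eq_of_lt h3]; rfl]
  simpa [bld] using key N le_rfl

lemma dig_lt {z b k : ℕ} (hb : 0 < b) : dig z b k < b := Nat.mod_lt _ hb

lemma eq_of_dig {b N : ℕ} : ∀ {y z : ℕ}, y < b ^ N → z < b ^ N → (∀ k < N, dig y b k = dig z b k) →
    y = z := by
  induction N with
  | zero => intro y z; simp; omega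
  | succ N ih =>
    intro y z hy hz h
    have h0 := h 0 (by omega)
    simp only [dig, pow_zero, Nat.div_one] at h0
    have := ih (y := y / b) (z := z / b) (Nat.div_lt_of_lt_mul (by rwa [pow_succ'] at hy))
      (Nat.div_lt_of_lt_mul (by rwa [pow_succ'] at hz)) fun k hk => by
        have := h (k + 1) (by omega)
        simpa only [dig, pow_succ', ← Nat.div_div_eq_div_mul] using this
    rw [← Nat.div_add_mod y b, ← Nat.div_add_mod z b, this, h0]

lemma sumM_cast {N p : ℕ} (hp : 0 < p) (f : ℕ → ℕ) :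
    ((sumM N p f : ℕ) : ZMod p) = ∑ i ∈ Finset.range N, (f i : ZMod p) := by
  unfold sumM
  induction N with
  | zero => simp
  | succ N ih =>
    rw [lp_succ, min_eq_left (Nat.mod_lt _ hp).le, Finset.sum_range_succ, ← ih]; simp

lemma prodM_cast {N p : ℕ} (hp : 0 < p) (f : ℕ → ℕ) :
    ((prodM N p f : ℕ) : ZMod p) = ∏ i ∈ Finset.range N, (f i : ZMod p) := by
  unfold prodM
  induction N with
  | zero => simp
  | succ N ih =>
    rw [lp_succ, min_eq_left (Nat.mod_lt _ hp).le, Finset.prod_range_succ, ← ih]; simp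

end Vale.Agent.P312
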