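import Mathlib.FieldTheory.Finite.Basic
import Mathlib.Tactic

/-! Extracting top coefficients by summing over a prime field. -/

namespace Vale.Agent.P312

open Polynomial Finset

variable {p : ℕ}

/-- `h` is a polynomial function of degree at most `D` whose coefficient in degree `D` is `c`. -/
def Top (D : ℕ) (h : ZMod p → ZMod p) (c : ZMod p) : Prop :=
  ∃ q : (ZMod p)[X], q.natDegree ≤ D ∧ q.coeff D = c ∧ ∀ t, h t = q.eval t

lemma Top.cg {D : ℕ} {h h' : ZMod p → ZMod p} {c c'} (H : Top D h c) (e : ∀ t, h' t = h t)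
    (e' : c' = c) : Top D h' c' := by
  obtain ⟨q, a, b, d⟩ := H
  exact ⟨q, a, e' ▸ b, fun t => (e t).trans (d t)⟩

lemma Top.affine (a b : ZMod p) : Top 1 (fun t => a + b * t) b :=
  ⟨C b * X + C a, natDegree_linear_le, by simp [coeff_C], fun t => by simp [add_comm]⟩

lemma Top.const (a : ZMod p) : Top 0 (fun _ => a) a := ⟨C a, by simp, by simp, by simp⟩

lemma Top.mul {D E : ℕ} {h g : ZMod p → ZMod p} {c d} (H : Top D h c) (G : Top E g d) :
    Top (D + E) (fun t => h t * g t) (c * d) := by
  obtain ⟨q, a1, a2, a3⟩ := H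
  obtain ⟨r, b1, b2, b3⟩ := G
  exact ⟨q * r, natDegree_mul_le.trans (by omega), by rw [coeff_mul_add_eq_of_natDegree_le a1 b1, a2, b2],
    fun t => by simp [a3, b3]⟩

lemma Top.prod {D : ℕ} (N : ℕ) {h : ℕ → ZMod p → ZMod p} {c : ℕ → ZMod p}
    (H : ∀ k < N, Top D (h k) (c k)) :
    Top (N * D) (fun t => ∏ k ∈ range N, h k t) (∏ k ∈ range N, c k) := by
  induction N with
  | zero => simpa using Top.const 1
  | succ N ih =>
    simp only [prod_range_succ, add_mul, one_mul]
    exact (ih fun k hk => H k (by omega)).mul (H N (by omega))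

lemma Top.sum {D : ℕ} (N : ℕ) {h : ℕ → ZMod p → ZMod p} {c : ℕ → ZMod p}
    (H : ∀ k < N, Top D (h k) (c k)) :
    Top D (fun t => ∑ k ∈ range N, h k t) (∑ k ∈ range N, c k) := by
  induction N with
  | zero => exact ⟨0, by simp, by simp, by simp⟩
  | succ N ih =>
    obtain ⟨q, a1, a2, a3⟩ := ih fun k hk => H k (by omega)
    obtain ⟨r, b1, b2, b3⟩ := H N (by omega)
    exact ⟨q + r, natDegree_add_le_of_degree_le a1 b1, by simp [sum_range_succ, a2, b2],
      fun t => by simp [sum_range_succ, ← a3, b3]⟩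

lemma Top.cmul {D : ℕ} {h : ZMod p → ZMod p} {c} (a : ZMod p) (H : Top D h c) :
    Top D (fun t => a * h t) (a * c) := by
  simpa using (Top.const a).mul H

lemma sum_range_zmod [NeZero p] (f : ZMod p → ZMod p) :
    ∑ i ∈ range p, f (i : ZMod p) = ∑ t, f t := by
  refine sum_nbij' (fun i => (i : ZMod p)) ZMod.val (by simp) (fun a _ => by simp [ZMod.val_lt])
    (fun a ha => ZMod.val_cast_of_lt (by simpa using ha)) (by simp) (by simp)

lemma Top.extract [Fact p.Prime] {D : ℕ} {h : ZMod p → ZMod p} {c} (H : Top D h c) (hD : D < p) :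
    ∑ i ∈ range p, -(i : ZMod p) ^ (p - 1 - D) * h i = c := by
  obtain ⟨q, a1, a2, a3⟩ := H
  rw [sum_range_zmod fun t => -t ^ (p - 1 - D) * h t]
  simp only [a3, eval_eq_sum_range' (Nat.lt_succ_of_le a1), mul_sum]
  rw [sum_comm, sum_range_succ, sum_eq_zero, zero_add]
  · have e : ∀ t : ZMod p, -t ^ (p - 1 - D) * (q.coeff D * t ^ D) =
        -c * (1 - if t = 0 then 1 else 0) := by
      intro t
      have : t ^ (p - 1 - D) * t ^ D = if t ≠ 0 then 1 else 0 := by
        rw [← pow_add, show p - 1 - D + D = p - 1 by omega, ZMod.pow_card_sub_one]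
      rw [a2]
      split_ifs at this ⊢ <;> first | linear_combination (-c) * this | simp_all
    simp only [e, ← mul_sum, sum_sub_distrib]
    simp
  · intro d hd
    have hd := mem_range.1 hd
    have := FiniteField.sum_pow_lt_card_sub_one (ZMod p) (p - 1 - D + d) (by rw [ZMod.card]; omega)
    simp only [pow_add] at this
    calc _ = -q.coeff d * ∑ t : ZMod p, t ^ (p - 1 - D) * t ^ d := by
          rw [mul_sum]; exact sum_congr rfl fun t _ => by ring
      _ = 0 := by rw [this, mul_zero]

end Vale.Agent.P312
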