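import Vale.Agent.P312.Stack
import Vale.Agent.P312.Top

/-! A two-level catalytic evaluation procedure for directed acyclic computation graphs. -/

namespace Vale.Agent.P312

open Finset

structure CM where
  p : ℕ
  M : ℕ
  Z : ℕ
  Mm : ℕ
  GR : ℕ
  Pb : ℕ
  sm : ℕ
  lg : ℕ
  lo : ℕ → ℕ
  hi : ℕ → ℕ
  nc : ℕ → ℕ
  oc : ℕ → ℕ → ℕ
  ng : ℕ → ℕ
  nf : ℕ → ℕ
  ic : ℕ → ℕ → ℕ → ℕ
  chi : ℕ → ℕ → ℕ → ℕ → ℕ
  out : ℕ → ℕ → ℕ → ℕ

namespace CM

variable (D : CM)

def fac (u i j m z k : ℕ) : ℕ :=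
  if D.lo u ≤ k ∧ k < D.hi u then (if z.testBit k = true then 0 else i * j)
  else if k < D.GR then (if z.testBit k = true then dig m D.p k else i + D.p - dig m D.p k) * j
  else (if z.testBit k = true then dig m D.p k else j + D.p - dig m D.p k) * i

def term (u g r i j m : ℕ) : ℕ :=
  sumM D.Z D.p fun z => D.chi u g r z * prodM D.M D.p fun k => D.fac u i j m z k

def npw (i e : ℕ) : ℕ := (D.p - 1) * prodM e D.p fun _ => i

def accN (u g r i j l m : ℕ) : ℕ :=
  ((if j = 0 then 0 else l % D.p) + D.npw j (D.p - 1 - D.M) * D.term u g r i j m) % D.p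

def locN (u g r i j l m : ℕ) : ℕ :=
  (if j = D.p - 1 then (if r = 0 then 1 else l / D.p) * D.accN u g r i j l m else l / D.p) % D.p * D.p +
    D.accN u g r i j l m

def addv (m c u g : ℕ) : ℕ := bld D.Mm D.p D.M fun k => (dig m D.p k + c * D.out u g k) % D.p

def memN (u g r i j l m : ℕ) : ℕ :=
  if j = D.p - 1 ∧ r = D.nf u - 1 then
    D.addv m (D.npw i (D.p - 1 - D.nf u * D.M) * (D.locN u g r i j l m / D.p)) u g
  else m

def base (P : ℕ) : ℕ := if P % 2 = 0 then D.sm else D.lg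

def len (P : ℕ) : ℕ :=
  if P % 2 = 0 then (if P / 2 / D.p = 0 then 0 else D.p * (D.nc (P / 2 / D.p) + 1))
  else D.ng (P / 2 / D.p) * D.nf (P / 2 / D.p) * D.p

def tgtO (u i c : ℕ) : ℕ := if c = 0 then (u * D.p + i) * 2 + 1 else D.oc u (c - 1) * D.p * 2

def tgt (P n : ℕ) : ℕ :=
  if P % 2 = 0 then D.tgtO (P / 2 / D.p) (n / (D.nc (P / 2 / D.p) + 1)) (n % (D.nc (P / 2 / D.p) + 1))
  else D.ic (P / 2 / D.p) (n / D.p / D.nf (P / 2 / D.p)) (n / D.p % D.nf (P / 2 / D.p)) * D.p * 2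

def actL (P n l m : ℕ) : ℕ :=
  if P % 2 = 0 then l else D.locN (P / 2 / D.p) (n / D.p / D.nf (P / 2 / D.p))
    (n / D.p % D.nf (P / 2 / D.p)) (P / 2 % D.p) (n % D.p) l m

def actM (P n l m : ℕ) : ℕ :=
  if P % 2 = 0 then m else D.memN (P / 2 / D.p) (n / D.p / D.nf (P / 2 / D.p))
    (n / D.p % D.nf (P / 2 / D.p)) (P / 2 % D.p) (n % D.p) l m

def sM : SM := ⟨D.Pb, D.p * D.p, D.Mm, D.base, D.len, D.tgt, D.actL, D.actM⟩

def T (u k : ℕ) : Prop := D.lo u ≤ k ∧ k < D.hi u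

instance (u k : ℕ) : Decidable (D.T u k) := by unfold T; infer_instance

/-- Memory digits as field elements. -/
def dg (m k : ℕ) : ZMod D.p := (dig m D.p k : ℕ)

def facZ (u : ℕ) (i j : ZMod D.p) (μ : ℕ → ZMod D.p) (z k : ℕ) : ZMod D.p :=
  if D.T u k then (if z.testBit k = true then 0 else i * j)
  else if k < D.GR then (if z.testBit k = true then μ k else i - μ k) * j
  else (if z.testBit k = true then μ k else j - μ k) * i

def termZ (u g r : ℕ) (i j : ZMod D.p) (μ : ℕ → ZMod D.p) : ZMod D.p :=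
  ∑ z ∈ range (2 ^ D.M), (D.chi u g r z : ZMod D.p) * ∏ k ∈ range D.M, D.facZ u i j μ z k

def gZ (u : ℕ) (i : ZMod D.p) (μ y : ℕ → ZMod D.p) (z k : ℕ) : ZMod D.p :=
  if D.T u k then (if z.testBit k = true then 0 else i)
  else if k < D.GR then (if z.testBit k = true then μ k else i - μ k)
  else (if z.testBit k = true then y k else 1 - y k) * i

def AZ (u g r : ℕ) (i : ZMod D.p) (μ y : ℕ → ZMod D.p) : ZMod D.p :=
  ∑ z ∈ range (2 ^ D.M), (D.chi u g r z : ZMod D.p) * ∏ k ∈ range D.M, D.gZ u i μ y z k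

def Adds (P : ℕ) (v : ℕ → ZMod D.p) : Prop :=
  ∀ m, ∃ m', D.sM.Call P m m' ∧ ∀ k < D.M, D.dg m' k = D.dg m k + v k

variable {D}

lemma termZ_cg {u g r i j μ μ'} (h : ∀ k < D.M, ¬D.T u k → μ k = μ' k) :
    D.termZ u g r i j μ = D.termZ u g r i j μ' := by
  refine sum_congr rfl fun z _ => congrArg _ (prod_congr rfl fun k hk => ?_)
  unfold facZ
  by_cases hT : D.T u k
  · simp [hT]
  · simp [hT, h k (mem_range.1 hk) hT]

lemma AZ_cg {u g r i μ μ' y} (h : ∀ k < D.M, ¬D.T u k → μ k = μ' k) :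
    D.AZ u g r i μ y = D.AZ u g r i μ' y := by
  refine sum_congr rfl fun z _ => congrArg _ (prod_congr rfl fun k hk => ?_)
  unfold gZ
  by_cases hT : D.T u k
  · simp [hT]
  · simp [hT, h k (mem_range.1 hk) hT]

lemma top_term (u g r i) (μ y : ℕ → ZMod D.p) (hy : ∀ k < D.GR, y k = 0) :
    Top D.M (fun j => D.termZ u g r i j fun k => μ k + j * y k) (D.AZ u g r i μ y) := by
  refine Top.sum _ fun z _ => Top.cmul _ ?_
  have := Top.prod (D := 1) D.M (h := fun k j => D.facZ u i j (fun k => μ k + j * y k) z k)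
    (c := fun k => D.gZ u i μ y z k) fun k _ => by
      unfold facZ gZ
      split_ifs with h1 h2 h3 h4 h5
      · exact (Top.affine 0 0).cg (by simp) rfl
      · exact (Top.affine 0 i).cg (by simp) rfl
      · exact (Top.affine 0 _).cg (by simp [hy k h3]) rfl
      · exact (Top.affine 0 _).cg (by simp [hy k h3]) rfl
      · exact (Top.affine (μ k * i) _).cg (fun t => by ring) rfl
      · exact (Top.affine (-μ k * i) _).cg (fun t => by ring) rfl
  rwa [mul_one] at this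

lemma top_A (u g r) (μ x y : ℕ → ZMod D.p) {z0 : ℕ} (hz : z0 < 2 ^ D.M)
    (h1 : ∀ k < D.M, D.T u k → z0.testBit k = false)
    (h2 : ∀ k < D.M, ¬D.T u k → k < D.GR → x k = if z0.testBit k = true then 1 else 0)
    (h3 : ∀ k < D.M, ¬D.T u k → ¬k < D.GR → y k = if z0.testBit k = true then 1 else 0) :
    Top D.M (fun i => D.AZ u g r i (fun k => μ k + i * x k) y) (D.chi u g r z0) := by
  have := Top.sum (D := D.M) (2 ^ D.M)
    (h := fun z i => (D.chi u g r z : ZMod D.p) * ∏ k ∈ range D.M, D.gZ u i (fun k => μ k + i * x k) y z k)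
    (c := fun z => (D.chi u g r z : ZMod D.p) *
      ∏ k ∈ range D.M, if z.testBit k = z0.testBit k then 1 else 0) fun z _ => Top.cmul _ (by
      have := Top.prod (D := 1) D.M (h := fun k i => D.gZ u i (fun k => μ k + i * x k) y z k)
        (c := fun k => if z.testBit k = z0.testBit k then 1 else 0) fun k hk => by
          unfold gZ
          by_cases a1 : D.T u k
          · rw [h1 k hk a1]
            cases z.testBit k
            · exact (Top.affine 0 1).cg (by simp [a1]) (by simp)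
            · exact (Top.affine 0 0).cg (by simp [a1]) (by simp)
          · by_cases a2 : k < D.GR
            · simp only [if_neg a1, if_pos a2, h2 k hk a1 a2]
              cases z.testBit k <;> cases z0.testBit k
              · exact (Top.affine (-μ k) 1).cg (fun t => by simp; ring) (by simp)
              · exact (Top.affine (-μ k) 0).cg (fun t => by simp) (by simp)
              · exact (Top.affine (μ k) 0).cg (fun t => by simp) (by simp)
              · exact (Top.affine (μ k) 1).cg (fun t => by simp) (by simp)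
            · simp only [if_neg a1, if_neg a2, h3 k hk a1 a2]
              cases z.testBit k <;> cases z0.testBit k
              · exact (Top.affine 0 1).cg (fun t => by simp) (by simp)
              · exact (Top.affine 0 0).cg (fun t => by simp) (by simp)
              · exact (Top.affine 0 0).cg (fun t => by simp) (by simp)
              · exact (Top.affine 0 1).cg (fun t => by simp) (by simp)
      rwa [mul_one] at this)
  refine this.cg (fun _ => rfl) ?_
  rw [sum_eq_single z0 _ (by simp [hz])]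
  · simp
  · intro z hz' hne
    have hz' := mem_range.1 hz'
    obtain ⟨k, hk⟩ : ∃ k, z.testBit k ≠ z0.testBit k := by
      by_contra hc
      push Not at hc
      exact hne (Nat.eq_of_testBit_eq hc)
    have hk' : k < D.M := by
      by_contra hc
      have := Nat.pow_le_pow_right (show 0 < 2 by norm_num) (not_lt.1 hc)
      rw [Nat.testBit_lt_two_pow (by omega), Nat.testBit_lt_two_pow (by omega)] at hk
      exact hk rfl
    rw [prod_eq_zero (mem_range.2 hk') (if_neg hk), mul_zero]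

/-- Arithmetic side conditions. -/
structure Ar (D : CM) : Prop where
  hp : D.p.Prime
  hZ : D.Z = 2 ^ D.M
  hMm : D.Mm = D.p ^ D.M
  hM : D.M < D.p

lemma Ar.pos (h : D.Ar) : 0 < D.p := h.hp.pos

lemma Ar.term_cast (h : D.Ar) (u g r i j m) :
    ((D.term u g r i j m : ℕ) : ZMod D.p) = D.termZ u g r i j (D.dg m) := by
  unfold term termZ
  rw [sumM_cast h.pos, h.hZ]
  refine sum_congr rfl fun z _ => ?_
  rw [Nat.cast_mul, prodM_cast h.pos]
  refine congrArg _ (prod_congr rfl fun k _ => ?_)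
  have := dig_lt (z := m) (k := k) h.pos
  unfold fac facZ T dg
  split_ifs <;> simp [Nat.cast_sub (show dig m D.p k ≤ i + D.p by omega),
    Nat.cast_sub (show dig m D.p k ≤ j + D.p by omega)]

lemma Ar.npw_cast (h : D.Ar) (i e) : ((D.npw i e : ℕ) : ZMod D.p) = -(i : ZMod D.p) ^ e := by
  unfold npw
  rw [Nat.cast_mul, prodM_cast h.pos, Nat.cast_sub h.pos]; simp

lemma Ar.addv_spec (h : D.Ar) (m c u g) : D.addv m c u g < D.Mm ∧
    ∀ k < D.M, D.dg (D.addv m c u g) k = D.dg m k + c * D.out u g k := by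
  have := bld_spec (W := D.Mm) (b := D.p) (N := D.M)
    (f := fun k => (dig m D.p k + c * D.out u g k) % D.p) (fun k _ => Nat.mod_lt _ h.pos) h.hMm.ge
  refine ⟨h.hMm ▸ this.1, fun k hk => ?_⟩
  unfold dg addv
  rw [this.2 k hk]; simp

lemma Ar.accN_lt (h : D.Ar) (u g r i j l m) : D.accN u g r i j l m < D.p := Nat.mod_lt _ h.pos

lemma Ar.loc_mod (h : D.Ar) (u g r i j l m) : ((D.locN u g r i j l m % D.p : ℕ) : ZMod D.p) =
    (if j = 0 then 0 else ((l % D.p : ℕ) : ZMod D.p)) +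
      -(j : ZMod D.p) ^ (D.p - 1 - D.M) * D.termZ u g r i j (D.dg m) := by
  rw [locN, Nat.mul_add_mod_of_lt (h.accN_lt ..), accN, ← h.term_cast, ← h.npw_cast]
  split_ifs <;> simp

lemma Ar.loc_div (h : D.Ar) (u g r i j l m) : ((D.locN u g r i j l m / D.p : ℕ) : ZMod D.p) =
    if j = D.p - 1 then (if r = 0 then 1 else ((l / D.p : ℕ) : ZMod D.p)) *
      ((D.locN u g r i j l m % D.p : ℕ) : ZMod D.p) else ((l / D.p : ℕ) : ZMod D.p) := by
  rw [locN, Nat.mul_add_mod_of_lt (h.accN_lt ..), SM.mul_add_div' (h.accN_lt ..)]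
  split_ifs <;> simp

lemma dec_inner {p u i : ℕ} (hi : i < p) : ((u * p + i) * 2 + 1) % 2 = 1 ∧
    ((u * p + i) * 2 + 1) / 2 / p = u ∧ ((u * p + i) * 2 + 1) / 2 % p = i := by
  rw [show ((u * p + i) * 2 + 1) / 2 = u * p + i by omega, SM.mul_add_div' hi, Nat.mul_add_mod_of_lt hi]
  omega

lemma dec_outer {p u : ℕ} (hp : 0 < p) : u * p * 2 % 2 = 0 ∧ u * p * 2 / 2 / p = u := by
  rw [show u * p * 2 / 2 = u * p by omega, Nat.mul_div_cancel _ hp]
  omega

lemma Ar.inner_step (h : D.Ar) {u i g r j l m m1} (hi : i < D.p) (hg : g < D.ng u) (hr : r < D.nf u)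
    (hj : j < D.p) (hc : D.sM.Call (D.ic u g r * D.p * 2) (D.memN u g r i j l m) m1) :
    D.sM.Seg ((u * D.p + i) * 2 + 1) ((g * D.nf u + r) * D.p + j) ((g * D.nf u + r) * D.p + j + 1)
      l m (D.locN u g r i j l m) m1 := by
  obtain ⟨a1, a2, a3⟩ := dec_inner (u := u) hi
  have := SM.Seg.one (S := D.sM) (P := (u * D.p + i) * 2 + 1) (n := (g * D.nf u + r) * D.p + j)
    (l := l) (m := m) (m1 := m1) (by
      simp only [sM, len, a1, a2, one_ne_zero, if_false]
      have : g * D.nf u + r + 1 ≤ D.ng u * D.nf u := by nlinarith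
      nlinarith) (by
      simpa only [sM, tgt, actM, a1, a2, a3, one_ne_zero, if_false, SM.mul_add_div' hj,
        SM.mul_add_div' hr, Nat.mul_add_mod_of_lt hj, Nat.mul_add_mod_of_lt hr] using hc)
  simpa only [sM, actL, a1, a2, a3, one_ne_zero, if_false, SM.mul_add_div' hj,
    SM.mul_add_div' hr, Nat.mul_add_mod_of_lt hj, Nat.mul_add_mod_of_lt hr] using this

lemma Ar.inner3 (h : D.Ar) {u i g r y} (hi : i < D.p) (hg : g < D.ng u) (hr : r < D.nf u)
    (hy : D.Adds (D.ic u g r * D.p * 2) y) (hy0 : ∀ k < D.GR, y k = 0) (l m) : ∃ l' m',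
    D.sM.Seg ((u * D.p + i) * 2 + 1) ((g * D.nf u + r) * D.p) ((g * D.nf u + r + 1) * D.p) l m l' m' ∧
      ((l' / D.p : ℕ) : ZMod D.p) = (if r = 0 then 1 else ((l / D.p : ℕ) : ZMod D.p)) *
        D.AZ u g r i (D.dg m) y ∧
      ∀ k < D.M, D.dg m' k = D.dg m k + if r = D.nf u - 1 then
        -(i : ZMod D.p) ^ (D.p - 1 - D.nf u * D.M) * (l' / D.p : ℕ) * D.out u g k else 0 := by
  have hp2 := h.hp.two_le
  haveI := Fact.mk h.hp
  obtain ⟨l1, m1, a1, a2, a3, a4⟩ := SM.Seg.loop (S := D.sM) (P := (u * D.p + i) * 2 + 1)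
    (fun j l' m' => ((l' / D.p : ℕ) : ZMod D.p) = (l / D.p : ℕ) ∧
      (if j = 0 then 0 else ((l' % D.p : ℕ) : ZMod D.p)) = ∑ t ∈ range j,
        -(t : ZMod D.p) ^ (D.p - 1 - D.M) * D.termZ u g r i t (fun k => D.dg m k + t * y k) ∧
      ∀ k < D.M, D.dg m' k = D.dg m k + j * y k)
    (fun j => (g * D.nf u + r) * D.p + j) (D.p - 1) (fun j hj l' m' ⟨b1, b2, b3⟩ => by
      obtain ⟨m2, c1, c2⟩ := hy m'
      refine ⟨_, m2, h.inner_step hi hg hr (by omega) (by rwa [memN, if_neg (by omega)]), ?_, ?_, ?_⟩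
      · rw [h.loc_div, if_neg (by omega), b1]
      · rw [if_neg (by omega), h.loc_mod, b2, sum_range_succ, termZ_cg fun k hk _ => b3 k hk]
      · intro k hk; rw [c2 k hk, b3 k hk]; push_cast; ring) (l := l) (m := m) (by simp)
  obtain ⟨m2, c1, c2⟩ := hy (D.memN u g r i (D.p - 1) l1 m1)
  have s2 := h.inner_step hi hg hr (by omega) c1
  have e : ((D.locN u g r i (D.p - 1) l1 m1 / D.p : ℕ) : ZMod D.p) =
      (if r = 0 then 1 else ((l / D.p : ℕ) : ZMod D.p)) * D.AZ u g r i (D.dg m) y := by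
    rw [h.loc_div, if_pos rfl, a2, h.loc_mod, a3, termZ_cg fun k hk _ => a4 k hk, ← sum_range_succ
      (fun t : ℕ => -(t : ZMod D.p) ^ (D.p - 1 - D.M) * D.termZ u g r i t (fun k => D.dg m k + t * y k)),
      show D.p - 1 + 1 = D.p by omega, (top_term u g r i (D.dg m) y hy0).extract h.hM]
  refine ⟨_, m2, ?_, e, fun k hk => ?_⟩
  · rw [show (g * D.nf u + r + 1) * D.p = (g * D.nf u + r) * D.p + (D.p - 1) + 1 by
      rw [add_mul _ 1]; omega]
    exact a1.trans s2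
  · rw [c2 k hk, memN]
    have e2 := a4 k hk
    rw [Nat.cast_sub h.pos, ZMod.natCast_self] at e2
    by_cases hl : r = D.nf u - 1
    · rw [if_pos ⟨rfl, hl⟩, if_pos hl, (h.addv_spec ..).2 k hk, Nat.cast_mul, h.npw_cast, e2]
      push_cast; ring
    · rw [if_neg (by tauto), if_neg hl, e2]; push_cast; ring

lemma Ar.inner (h : D.Ar) {u i} {y : ℕ → ℕ → ℕ → ZMod D.p} (hi : i < D.p) (hf : 0 < D.nf u)
    (hy : ∀ g < D.ng u, ∀ r < D.nf u, D.Adds (D.ic u g r * D.p * 2) (y g r) ∧ ∀ k < D.GR, y g r k = 0)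
    (ho : ∀ g < D.ng u, ∀ k, ¬D.T u k → D.out u g k = 0) (m) : ∃ m',
    D.sM.Call ((u * D.p + i) * 2 + 1) m m' ∧ ∀ k < D.M, D.dg m' k = D.dg m k + ∑ g ∈ range (D.ng u),
      -(i : ZMod D.p) ^ (D.p - 1 - D.nf u * D.M) *
        (∏ r ∈ range (D.nf u), D.AZ u g r i (D.dg m) (y g r)) * D.out u g k := by
  obtain ⟨l1, m1, a1, a2⟩ := SM.Seg.loop (S := D.sM) (P := (u * D.p + i) * 2 + 1)
    (fun G _ m' => ∀ k < D.M, D.dg m' k = D.dg m k + ∑ g ∈ range G,
      -(i : ZMod D.p) ^ (D.p - 1 - D.nf u * D.M) *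
        (∏ r ∈ range (D.nf u), D.AZ u g r i (D.dg m) (y g r)) * D.out u g k)
    (fun g => g * D.nf u * D.p) (D.ng u) (fun g hg l' m' b => by
      obtain ⟨l2, m2, c1, c2, c3⟩ := SM.Seg.loop (S := D.sM) (P := (u * D.p + i) * 2 + 1)
        (fun r l2 m2 => (if r = 0 then 1 else ((l2 / D.p : ℕ) : ZMod D.p)) =
            ∏ s ∈ range r, D.AZ u g s i (D.dg m') (y g s) ∧
          ∀ k < D.M, D.dg m2 k = D.dg m' k + if r = D.nf u then
            -(i : ZMod D.p) ^ (D.p - 1 - D.nf u * D.M) * (l2 / D.p : ℕ) * D.out u g k else 0)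
        (fun r => (g * D.nf u + r) * D.p) (D.nf u) (fun r hr l2 m2 ⟨d1, d2⟩ => by
          obtain ⟨l3, m3, e1, e2, e3⟩ := h.inner3 hi hg hr (hy g hg r hr).1 (hy g hg r hr).2 l2 m2
          simp only [if_neg hr.ne, add_zero] at d2
          refine ⟨l3, m3, e1, ?_, fun k hk => ?_⟩
          · rw [if_neg (by omega), e2, d1, prod_range_succ, AZ_cg fun k hk _ => d2 k hk]
          · rw [e3 k hk, d2 k hk]
            simp only [show r + 1 = D.nf u ↔ r = D.nf u - 1 by omega])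
        (l := l') (m := m') (by simp [hf.ne])
      refine ⟨l2, m2, by simpa [add_mul] using c1, fun k hk => ?_⟩
      rw [if_neg hf.ne'] at c2
      rw [c3 k hk, if_pos rfl, c2, b k hk, sum_range_succ, add_assoc]
      congr 4
      refine prod_congr rfl fun r _ => AZ_cg fun k hk hT => ?_
      rw [b k hk, sum_eq_zero, add_zero]
      intro g' hg'
      rw [ho g' (by have := mem_range.1 hg'; omega) k hT]; simp) (l := 0) (m := m) (by simp)
  refine ⟨m1, ⟨l1, ?_⟩, a2⟩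
  obtain ⟨b1, b2, -⟩ := dec_inner (u := u) hi
  simpa [sM, len, b1, b2] using a1

lemma Ar.outer (h : D.Ar) {u} (hu : u ≠ 0) {y : ℕ → ℕ → ℕ → ZMod D.p} {x : ℕ → ℕ → ZMod D.p}
    (hf : 0 < D.nf u)
    (hy : ∀ g < D.ng u, ∀ r < D.nf u, D.Adds (D.ic u g r * D.p * 2) (y g r) ∧ ∀ k < D.GR, y g r k = 0)
    (ho : ∀ g < D.ng u, ∀ k, ¬D.T u k → D.out u g k = 0)
    (hx : ∀ c < D.nc u, D.Adds (D.oc u c * D.p * 2) (x c)) (m) : ∃ m',
    D.sM.Call (u * D.p * 2) m m' ∧ ∀ k < D.M, D.dg m' k = D.dg m k + ∑ g ∈ range (D.ng u),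
      (∑ i ∈ range D.p, -(i : ZMod D.p) ^ (D.p - 1 - D.nf u * D.M) *
        ∏ r ∈ range (D.nf u), D.AZ u g r i (fun k => D.dg m k + i * ∑ c ∈ range (D.nc u), x c k)
          (y g r)) * D.out u g k := by
  obtain ⟨b1, b2⟩ := dec_outer (u := u) h.pos
  have hl : D.sM.len (u * D.p * 2) = D.p * (D.nc u + 1) := by simp only [sM, len, b1, b2, hu, if_true, if_false]
  have st : ∀ i < D.p, ∀ c < D.nc u + 1, ∀ l m m1, D.sM.Call (D.tgtO u i c) m m1 →
      D.sM.Seg (u * D.p * 2) (i * (D.nc u + 1) + c) (i * (D.nc u + 1) + c + 1) l m l m1 := by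
    intro i hi c hc l m m1 hh
    have := SM.Seg.one (S := D.sM) (P := u * D.p * 2) (n := i * (D.nc u + 1) + c)
      (l := l) (m := m) (m1 := m1) (by rw [hl]; nlinarith) (by
        simpa only [sM, tgt, actM, b1, b2, if_true, SM.mul_add_div' hc, Nat.mul_add_mod_of_lt hc]
          using hh)
    simpa only [sM, actL, b1, if_true] using this
  obtain ⟨l1, m1, a1, a2⟩ := SM.Seg.loop (S := D.sM) (P := u * D.p * 2)
    (fun I _ m' => ∀ k < D.M, D.dg m' k = D.dg m k + I * ∑ c ∈ range (D.nc u), x c k +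
      ∑ g ∈ range (D.ng u), (∑ i ∈ range I, -(i : ZMod D.p) ^ (D.p - 1 - D.nf u * D.M) *
        ∏ r ∈ range (D.nf u), D.AZ u g r i (fun k => D.dg m k + i * ∑ c ∈ range (D.nc u), x c k)
          (y g r)) * D.out u g k)
    (fun i => i * (D.nc u + 1)) D.p (fun i hi l' m' b => by
      obtain ⟨m2, c1, c2⟩ := h.inner hi hf hy ho m'
      have s1 := st i hi 0 (by omega) l' m' m2 (by simpa [tgtO] using c1)
      obtain ⟨l3, m3, d1, d2⟩ := SM.Seg.loop (S := D.sM) (P := u * D.p * 2)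
        (fun C _ m3 => ∀ k < D.M, D.dg m3 k = D.dg m2 k + ∑ c ∈ range C, x c k)
        (fun c => i * (D.nc u + 1) + c + 1) (D.nc u) (fun c hc l3 m3 e => by
          obtain ⟨m4, f1, f2⟩ := hx c hc m3
          refine ⟨l3, m4, st i hi (c + 1) (by omega) l3 m3 m4 (by simpa [tgtO] using f1), ?_⟩
          intro k hk
          rw [f2 k hk, e k hk, sum_range_succ, add_assoc]) (l := l') (m := m2) (by simp)
      refine ⟨l3, m3, by simpa [add_mul, add_assoc] using s1.trans d1, fun k hk => ?_⟩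
      have : ∀ g ∈ range (D.ng u), ∏ r ∈ range (D.nf u), D.AZ u g r i (D.dg m') (y g r) =
          ∏ r ∈ range (D.nf u), D.AZ u g r i (fun k => D.dg m k + i * ∑ c ∈ range (D.nc u), x c k)
            (y g r) := fun g _ => prod_congr rfl fun r _ => AZ_cg fun k hk hT => by
        rw [b k hk, sum_eq_zero (s := range (D.ng u)), add_zero]
        intro g' hg'
        rw [ho g' (mem_range.1 hg') k hT]; simp
      rw [d2 k hk, c2 k hk, sum_congr rfl fun g hg => by rw [this g hg], b k hk]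
      simp only [sum_range_succ, add_mul (∑ _ ∈ _, _), sum_add_distrib]
      push_cast; ring) (l := 0) (m := m) (by simp)
  refine ⟨m1, ⟨l1, by simpa [hl] using a1⟩, fun k hk => ?_⟩
  rw [a2 k hk]; simp

/-- Structural and semantic conditions on a graph of nodes. -/
structure Spec (D : CM) (Nd : ℕ → Prop) (bit : ℕ → ℕ → Prop) (α β : ℕ → ℕ) : Prop where
  b0 : ∀ k, ¬bit 0 k
  nf : ∀ u, Nd u → u ≠ 0 → 0 < D.nf u ∧ D.nf u * D.M < D.p ∧ 0 < β u
  oc : ∀ u, Nd u → u ≠ 0 → ∀ c < D.nc u, Nd (D.oc u c) ∧ α (D.oc u c) < α u ∧ β (D.oc u c) ≤ β u ∧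
    (∀ k, bit (D.oc u c) k → k < D.GR ∧ ¬D.T u k) ∧
    ∀ c' < D.nc u, ∀ k, bit (D.oc u c) k → bit (D.oc u c') k → c = c'
  ic : ∀ u, Nd u → u ≠ 0 → ∀ g < D.ng u, ∀ r < D.nf u, Nd (D.ic u g r) ∧ α (D.ic u g r) < α u ∧
    β (D.ic u g r) < β u ∧ ∀ k, bit (D.ic u g r) k → D.GR ≤ k ∧ ¬D.T u k
  out : ∀ u, Nd u → u ≠ 0 → ∀ g < D.ng u, ∀ k, ¬D.T u k → D.out u g k = 0
  sem : ∀ u, Nd u → u ≠ 0 → ∀ Zs : ℕ → ℕ → ℕ, (∀ g r, ∀ k < D.M, ((Zs g r).testBit k = true ↔
      (∃ c < D.nc u, bit (D.oc u c) k) ∨ bit (D.ic u g r) k)) → ∀ k < D.M,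
      (bit u k → ∑ g ∈ range (D.ng u), (∏ r ∈ range (D.nf u), D.chi u g r (Zs g r)) * D.out u g k = 1) ∧
      (¬bit u k → ∑ g ∈ range (D.ng u), (∏ r ∈ range (D.nf u), D.chi u g r (Zs g r)) * D.out u g k = 0)
  pb : ∀ u, Nd u → (u + 1) * D.p * 2 ≤ D.Pb
  sm : ∀ u, Nd u → (D.p * (D.nc u + 1) + 1) * (D.p * D.p) ≤ D.sm
  lg : ∀ u, Nd u → (D.ng u * D.nf u * D.p + 1) * (D.p * D.p) ≤ D.lg

lemma exists_bits (M : ℕ) (B : ℕ → Prop) : ∃ z < 2 ^ M, ∀ k < M, (z.testBit k = true ↔ B k) := by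
  classical
  obtain ⟨h1, h2⟩ := bld_spec (W := 2 ^ M) (b := 2) (N := M) (f := fun k => if B k then 1 else 0)
    (fun k _ => by split_ifs <;> simp) le_rfl
  refine ⟨_, h1, fun k hk => ?_⟩
  have := h2 k hk
  rw [dig] at this
  rw [Nat.testBit_eq_decide_div_mod_eq, this]
  by_cases h : B k <;> simp [h]

variable {Nd : ℕ → Prop} {bit : ℕ → ℕ → Prop} {α β : ℕ → ℕ}

open Classical in
theorem Spec.adds (h : D.Ar) (s : D.Spec Nd bit α β) (u : ℕ) (hu : Nd u) :
    D.Adds (u * D.p * 2) fun k => if bit u k then 1 else 0 := by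
  induction' hn : α u using Nat.strong_induction_on with n ih generalizing u
  subst hn
  intro m
  by_cases u0 : u = 0
  · subst u0
    exact ⟨m, ⟨0, by simpa [sM, len] using SM.Seg.refl _ _ _ _⟩, by simp [s.b0]⟩
  haveI := Fact.mk h.hp
  obtain ⟨f1, f2, -⟩ := s.nf u hu u0
  obtain ⟨m', a1, a2⟩ := h.outer u0 (y := fun g r k => if bit (D.ic u g r) k then 1 else 0)
    (x := fun c k => if bit (D.oc u c) k then 1 else 0) f1
    (fun g hg r hr => by
      obtain ⟨c1, c2, -, c3⟩ := s.ic u hu u0 g hg r hr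
      exact ⟨ih _ c2 _ c1 rfl, fun k hk => if_neg fun hb => by have := (c3 k hb).1; omega⟩)
    (s.out u hu u0) (fun c hc => by
      obtain ⟨c1, c2, -⟩ := s.oc u hu u0 c hc
      exact ih _ c2 _ c1 rfl) m
  refine ⟨m', a1, fun k hk => ?_⟩
  rw [a2 k hk]
  congr 1
  choose Zs z1 z2 using fun g r => exists_bits D.M fun k =>
    (∃ c < D.nc u, bit (D.oc u c) k) ∨ bit (D.ic u g r) k
  have e : ∀ g ∈ range (D.ng u), ∑ i ∈ range D.p, -(i : ZMod D.p) ^ (D.p - 1 - D.nf u * D.M) *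
      ∏ r ∈ range (D.nf u), D.AZ u g r i (fun k => D.dg m k + i * ∑ c ∈ range (D.nc u),
        if bit (D.oc u c) k then 1 else 0) (fun k => if bit (D.ic u g r) k then 1 else 0) =
      ∏ r ∈ range (D.nf u), (D.chi u g r (Zs g r) : ZMod D.p) := by
    intro g hg
    refine (Top.prod (D.nf u) fun r hr => top_A u g r (D.dg m) _ _ (z1 g r) ?_ ?_ ?_).extract f2
    all_goals obtain ⟨-, -, -, c3⟩ := s.ic u hu u0 g (mem_range.1 hg) r hr
    · intro k hk hT
      rw [← Bool.not_eq_true, z2 g r k hk]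
      rintro (⟨c, hc, hb⟩ | hb)
      · exact ((s.oc u hu u0 c hc).2.2.2.1 k hb).2 hT
      · exact (c3 k hb).2 hT
    · intro k hk _ hG
      simp only [z2 g r k hk]
      by_cases hb : ∃ c < D.nc u, bit (D.oc u c) k
      · obtain ⟨c, hc, hb'⟩ := id hb
        rw [if_pos (Or.inl hb), sum_eq_single c _ (by simp [hc]), if_pos hb']
        intro c' hc' hne
        exact if_neg fun hb2 => hne ((s.oc u hu u0 c hc).2.2.2.2 c' (mem_range.1 hc') k hb' hb2).symm
      · rw [if_neg, sum_eq_zero]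
        · intro c hc; exact if_neg fun hb2 => hb ⟨c, mem_range.1 hc, hb2⟩
        · rintro (hb2 | hb2)
          · exact hb hb2
          · have := (c3 k hb2).1; omega
    · intro k hk _ hG
      simp only [z2 g r k hk]
      congr 1
      refine propext ⟨Or.inr, ?_⟩
      rintro (⟨c, hc, hb⟩ | hb)
      · exact absurd ((s.oc u hu u0 c hc).2.2.2.1 k hb).1 hG
      · exact hb
  rw [sum_congr rfl fun g hg => by rw [e g hg]]
  obtain ⟨s1, s2⟩ := s.sem u hu u0 Zs z2 k hk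
  simp only []
  split_ifs with hb
  · exact_mod_cast congrArg (Nat.cast : ℕ → ZMod D.p) (s1 hb)
  · exact_mod_cast congrArg (Nat.cast : ℕ → ZMod D.p) (s2 hb)

def Good (D : CM) (Nd : ℕ → Prop) (P : ℕ) : Prop :=
  (∃ u, Nd u ∧ P = u * D.p * 2) ∨ ∃ u i, Nd u ∧ u ≠ 0 ∧ i < D.p ∧ P = (u * D.p + i) * 2 + 1

def Phi (D : CM) (α β : ℕ → ℕ) (P : ℕ) : ℕ :=
  (D.sm * D.Pb) ^ (α (P / 2 / D.p) + (1 - P % 2)) * (D.lg * D.Pb) ^ β (P / 2 / D.p)

lemma pw_le {X Y a b c d : ℕ} (hX : 0 < X) (hY : 0 < Y) (h1 : a ≤ c) (h2 : b ≤ d) :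
    X ^ a * Y ^ b ≤ X ^ c * Y ^ d :=
  Nat.mul_le_mul (Nat.pow_le_pow_right hX h1) (Nat.pow_le_pow_right hY h2)

lemma Spec.ok (h : D.Ar) (s : D.Spec Nd bit α β) (u0 : ℕ) (hu0 : Nd u0) :
    D.sM.Ok (D.Good Nd) (D.Phi α β) := by
  have hp := h.pos
  have hP : 0 < D.Pb := lt_of_lt_of_le (by positivity) (s.pb u0 hu0)
  have hX : 0 < D.sm * D.Pb := Nat.mul_pos (lt_of_lt_of_le (by positivity) (s.sm u0 hu0)) hP
  have hY : 0 < D.lg * D.Pb := Nat.mul_pos (lt_of_lt_of_le (by positivity) (s.lg u0 hu0)) hP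
  have po : ∀ u, D.Phi α β (u * D.p * 2) = (D.sm * D.Pb) ^ (α u + 1) * (D.lg * D.Pb) ^ β u := by
    intro u; simp only [Phi, dec_outer hp]
  have pi : ∀ u, ∀ i < D.p, D.Phi α β ((u * D.p + i) * 2 + 1) =
      (D.sm * D.Pb) ^ α u * (D.lg * D.Pb) ^ β u := by
    intro u i hi; simp only [Phi, dec_inner hi]; simp
  constructor
  · rintro P (⟨u, hu, rfl⟩ | ⟨u, i, hu, -, hi, rfl⟩) <;> have := s.pb u hu <;> simp only [sM] <;> nlinarith
  · rintro P (⟨u, hu, rfl⟩ | ⟨u, i, hu, -, hi, rfl⟩)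
    · have := s.sm u hu
      simp only [sM, len, base, dec_outer hp, if_true]
      split_ifs
      · exact le_trans (Nat.mul_le_mul_right _ (by omega)) this
      · exact this
    · simpa [sM, len, base, dec_inner hi] using s.lg u hu
  · rintro P (⟨u, hu, rfl⟩ | ⟨u, i, hu, h0, hi, rfl⟩)
    · rw [po]
      simpa [sM, base] using pw_le hX hY (show 1 ≤ α u + 1 by omega) (Nat.zero_le (β u))
    · rw [pi u i hi]
      simpa [sM, base, dec_inner hi] using pw_le hX hY (Nat.zero_le (α u)) (s.nf u hu h0).2.2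
  · rintro P (⟨u, hu, rfl⟩ | ⟨u, i, hu, h0, hi, rfl⟩) n hn
    · simp only [sM, len, base, tgt, dec_outer hp, if_true] at hn ⊢
      have h0 : u ≠ 0 := by rintro rfl; simp at hn
      rw [if_neg h0] at hn
      have hi : n / (D.nc u + 1) < D.p := Nat.div_lt_of_lt_mul (by rwa [mul_comm])
      have hc : n % (D.nc u + 1) < D.nc u + 1 := Nat.mod_lt _ (by omega)
      unfold tgtO
      split_ifs with hc0
      · refine ⟨Or.inr ⟨u, _, hu, h0, hi, rfl⟩, ?_⟩
        rw [po, pi u _ hi, pow_succ']; exact le_of_eq (by ring)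
      · obtain ⟨c1, c2, c3, -⟩ := s.oc u hu h0 (n % (D.nc u + 1) - 1) (by omega)
        refine ⟨Or.inl ⟨_, c1, rfl⟩, ?_⟩
        rw [po, po, ← mul_assoc, ← pow_succ']
        exact pw_le hX hY (by omega) c3
    · simp only [sM, len, base, tgt, dec_inner hi, one_ne_zero, if_false] at hn ⊢
      have f1 := (s.nf u hu h0).1
      obtain ⟨c1, c2, c3, -⟩ := s.ic u hu h0 (n / D.p / D.nf u)
        (Nat.div_lt_of_lt_mul (Nat.div_lt_of_lt_mul (by rwa [mul_comm, mul_comm (D.nf u)])))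
        (n / D.p % D.nf u) (Nat.mod_lt _ f1)
      refine ⟨Or.inl ⟨_, c1, rfl⟩, ?_⟩
      rw [po, pi u i hi, mul_left_comm, ← pow_succ']
      exact pw_le hX hY (by omega) c3
  · intro P n l m hl
    simp only [sM, actL] at hl ⊢
    split_ifs
    · exact hl
    · unfold locN
      have key : ∀ a b : ℕ, a < D.p → b < D.p → a * D.p + b < D.p * D.p := fun a b _ _ => by nlinarith
      exact key _ _ (Nat.mod_lt _ hp) (h.accN_lt ..)
  · intro P n l m hm
    simp only [sM, actM, memN] at hm ⊢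
    split_ifs
    · exact hm
    · exact (h.addv_spec ..).1
    · exact hm
  · exact Nat.mul_pos hp hp
  · simp [sM, len]

/-- The final memory of the machine started on node `u`. -/
def final (D : CM) (W u : ℕ) : ℕ :=
  lp W (D.sM.push 0 (u * D.p * 2) 0 0 * D.Mm) W fun _ s => D.sM.step s

open Classical in
theorem Spec.final (h : D.Ar) (s : D.Spec Nd bit α β) {u W : ℕ} (hu : Nd u)
    (hW : (D.sm * D.Pb) ^ (α u + 1) * (D.lg * D.Pb) ^ β u * D.Mm ≤ W) :
    ∀ k < D.M, dig (D.final W u) D.p k = if bit u k then 1 else 0 := by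
  obtain ⟨m', a1, a2⟩ := s.adds h u hu 0
  have := (s.ok h u hu).run (W := W) (Or.inl ⟨u, hu, rfl⟩) a1
    (by simp only [sM, h.hMm]; exact pow_pos h.pos _) (by simpa only [Phi, dec_outer h.pos, sM] using hW)
  intro k hk
  have e := a2 k hk
  rw [CM.final, show D.Mm = D.sM.Mm from rfl, this]
  have hp := h.hp.two_le
  have e2 : ((dig m' D.p k : ℕ) : ZMod D.p) = ((if bit u k then 1 else 0 : ℕ) : ZMod D.p) := by
    simpa [dg, dig] using e
  have := (ZMod.natCast_eq_natCast_iff' _ _ _).1 e2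
  rwa [Nat.mod_eq_of_lt (dig_lt h.pos), Nat.mod_eq_of_lt (by split_ifs <;> omega)] at this

end CM

end Vale.Agent.P312
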