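import Vale.Agent.P312.Defs
import Mathlib.Tactic

/-! Block visits of a one-tape computation. -/

namespace Vale.Agent.P312

namespace OneTape

open Finset

variable {σ : Type} (M : OneTape σ)

def δ' (q : M.Q) (y : M.Γ) : M.Q × M.Γ × Dir := if (M.halt q).isSome then (q, y, .S) else M.δ q y

lemma step_eq (c : M.Cfg) : M.step c = ⟨(M.δ' c.q (c.tape c.head)).1,
    Function.update c.tape c.head (M.δ' c.q (c.tape c.head)).2.1,
    c.head + (M.δ' c.q (c.tape c.head)).2.2.toInt⟩ := by
  unfold step δ'
  split_ifs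
  · simp [Dir.toInt]
  · rfl

lemma step_head (c : M.Cfg) : c.head - 1 ≤ (M.step c).head ∧ (M.step c).head ≤ c.head + 1 := by
  rw [step_eq]
  simp only []
  cases (M.δ' c.q (c.tape c.head)).2.2 <;> simp [Dir.toInt] <;> omega

variable (L b τ : ℕ)

def pos (c : M.Cfg) : ℕ := (c.head + L).toNat

def blk (c : M.Cfg) : ℕ := M.pos L c / b

def vstep (j : ℕ) (c : M.Cfg) : M.Cfg := if M.blk L b c = j then M.step c else c

def visit (c : M.Cfg) : M.Cfg := (M.vstep L b (M.blk L b c))^[τ] c

def cv (x : List σ) (v : ℕ) : M.Cfg := (M.visit L b τ)^[v] (M.init x)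

lemma cv_succ (x v) : M.cv L b τ x (v + 1) = M.visit L b τ (M.cv L b τ x v) :=
  Function.iterate_succ_apply' _ _ _

lemma vstep_head (j : ℕ) (c : M.Cfg) (i : ℕ) : c.head - i ≤ ((M.vstep L b j)^[i] c).head ∧
    ((M.vstep L b j)^[i] c).head ≤ c.head + i := by
  induction i with
  | zero => simp
  | succ i ih =>
    rw [Function.iterate_succ_apply', vstep]
    have := M.step_head ((M.vstep L b j)^[i] c)
    split_ifs <;> omega

lemma cv_head (x v) : -(v * τ : ℕ) ≤ (M.cv L b τ x v).head ∧ (M.cv L b τ x v).head ≤ (v * τ : ℕ) := by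
  induction v with
  | zero => simp [cv, init]
  | succ v ih =>
    rw [cv_succ, visit, add_mul]
    have := M.vstep_head L b (M.blk L b (M.cv L b τ x v)) (M.cv L b τ x v) τ
    omega

def cross (x : List σ) (m : ℕ) : ℕ :=
  ∑ i ∈ range m, if M.blk L b (M.step^[i] (M.init x)) = M.blk L b (M.step^[i + 1] (M.init x)) then 0 else 1

lemma cross_mono (x) {m m'} (h : m ≤ m') : M.cross L b x m ≤ M.cross L b x m' :=
  sum_le_sum_of_subset (range_subset_range.2 h)

lemma cross_lt (x) {m m'} (h : m ≤ m')
    (hb : M.blk L b (M.step^[m'] (M.init x)) ≠ M.blk L b (M.step^[m] (M.init x))) :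
    M.cross L b x m < M.cross L b x m' := by
  induction m', h using Nat.le_induction with
  | base => exact absurd rfl hb
  | succ k hk ih =>
    have := M.cross_mono L b x hk
    rw [cross.eq_1 M L b x (k + 1), sum_range_succ, ← cross]
    split_ifs with h
    · exact ih (h ▸ hb)
    · omega

lemma visit_run (x m) : ∃ m', M.visit L b τ (M.step^[m] (M.init x)) = M.step^[m'] (M.init x) ∧
    m ≤ m' ∧ (m' = m + τ ∨ M.cross L b x m < M.cross L b x m') := by
  unfold visit
  induction τ with
  | zero => exact ⟨m, rfl, le_rfl, Or.inl rfl⟩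
  | succ i ih =>
    obtain ⟨m', a1, a2, a3⟩ := ih
    rw [Function.iterate_succ_apply', a1, vstep]
    split_ifs with h
    · have := M.cross_mono L b x (Nat.le_succ m')
      exact ⟨m' + 1, (Function.iterate_succ_apply' _ _ _).symm, by omega, by
        simp only [Nat.succ_eq_add_one] at this; omega⟩
    · exact ⟨m', rfl, a2, Or.inr (M.cross_lt L b x a2 h)⟩

lemma cv_halt (x) {T N : ℕ} (hT : T ≤ τ) (hh : (M.halt (M.step^[T] (M.init x)).q).isSome)
    (hN : M.cross L b x T < N) : M.cv L b τ x N = M.step^[T] (M.init x) := by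
  have key : ∀ v, ∃ m, M.cv L b τ x v = M.step^[m] (M.init x) ∧ (T ≤ m ∨ v ≤ M.cross L b x m) := by
    intro v
    induction v with
    | zero => exact ⟨0, rfl, Or.inr (by simp)⟩
    | succ v ih =>
      obtain ⟨m, a1, a2⟩ := ih
      obtain ⟨m', b1, b2, b3⟩ := M.visit_run L b τ x m
      exact ⟨m', by rw [cv_succ, a1, b1], by omega⟩
  obtain ⟨m, a1, a2⟩ := key N
  have : T ≤ m := by
    by_contra hc
    have := M.cross_mono L b x (show m ≤ T by omega)
    omega
  obtain ⟨d, rfl⟩ : ∃ d, m = d + T := ⟨m - T, by omega⟩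
  rw [a1, Function.iterate_add_apply, Function.iterate_fixed (by rw [step, if_pos hh])]

lemma cv_run (x v) : ∃ m, M.cv L b τ x v = M.step^[m] (M.init x) := by
  induction v with
  | zero => exact ⟨0, rfl⟩
  | succ v ih =>
    obtain ⟨m, a1⟩ := ih
    obtain ⟨m', b1, -⟩ := M.visit_run L b τ x m
    exact ⟨m', by rw [cv_succ, a1, b1]⟩

lemma halt_unique (c : M.Cfg) {m m' : ℕ} {r r' : Bool} (h : M.halt (M.step^[m] c).q = some r)
    (h' : M.halt (M.step^[m'] c).q = some r') : r = r' := by
  wlog hle : m ≤ m' generalizing m m' r r'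
  · exact (this h' h (by omega)).symm
  obtain ⟨d, rfl⟩ : ∃ d, m' = d + m := ⟨m' - m, by omega⟩
  rw [Function.iterate_add_apply, Function.iterate_fixed (by rw [step, if_pos (by simp [h])]), h] at h'
  simpa using h'

lemma div_ne_dvd {y : ℤ} {b : ℕ} (h : y.toNat / b ≠ (y + 1).toNat / b) : (b : ℤ) ∣ y + 1 := by
  by_cases hy : y < 0
  · rw [show y.toNat = 0 by omega, show (y + 1).toNat = 0 by omega] at h; exact absurd rfl h
  · obtain ⟨n, rfl⟩ : ∃ n : ℕ, y = n := ⟨y.toNat, by omega⟩
    rw [show ((n : ℤ) + 1).toNat = n + 1 by omega, Int.toNat_natCast, Nat.succ_div] at h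
    have : b ∣ n + 1 := by by_contra hc; simp [hc] at h
    exact_mod_cast this

lemma exists_offset (x) (T L0 : ℕ) (hb : 0 < b) :
    ∃ L, L0 ≤ L ∧ L < L0 + b ∧ M.cross L b x T * b ≤ T := by
  have key : ∑ o ∈ range b, M.cross (L0 + o) b x T ≤ T := by
    unfold cross
    rw [sum_comm]
    refine (sum_le_sum (g := fun _ => 1) fun i _ => ?_).trans (by simp)
    rw [Function.iterate_succ_apply']
    set c := M.step^[i] (M.init x)
    have hs := M.step_head c
    have : ∀ o : ℕ, ¬M.blk (L0 + o) b c = M.blk (L0 + o) b (M.step c) →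
        (b : ℤ) ∣ max c.head (M.step c).head + L0 + o := by
      intro o ho
      unfold blk pos at ho
      rcases lt_trichotomy (M.step c).head c.head with h | h | h
      · rw [max_eq_left h.le]
        have := div_ne_dvd (y := c.head + L0 + o - 1) (b := b) (by
          intro e; apply ho
          rw [show (M.step c).head + ((L0 + o : ℕ) : ℤ) = c.head + L0 + o - 1 by push_cast; omega, e]
          congr 2; push_cast; ring)
        simpa using this
      · exact absurd (by rw [h]) ho
      · rw [max_eq_right h.le]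
        have := div_ne_dvd (y := (M.step c).head + L0 + o - 1) (b := b) (by
          intro e; apply ho
          rw [show c.head + ((L0 + o : ℕ) : ℤ) = (M.step c).head + L0 + o - 1 by push_cast; omega, e]
          congr 2; push_cast; ring)
        simpa using this
    rw [sum_congr rfl fun o _ => (ite_not _ 1 0).symm, ← card_filter]
    refine card_le_one.2 fun o1 h1 o2 h2 => ?_
    simp only [mem_filter, mem_range] at h1 h2
    have d := Int.dvd_sub (this o1 h1.2) (this o2 h2.2)
    have := Int.eq_zero_of_abs_lt_dvd d (by rw [abs_lt]; omega)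
    omega
  by_contra hc
  push Not at hc
  have : ∑ _o ∈ range b, (T + 1) ≤ ∑ o ∈ range b, M.cross (L0 + o) b x T * b :=
    sum_le_sum fun o ho => hc _ (by omega) (by have := mem_range.1 ho; omega)
  rw [← sum_mul, sum_const, card_range, smul_eq_mul] at this
  nlinarith

end OneTape

end Vale.Agent.P312
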