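import Vale.Agent.P312.CM
import Vale.Agent.P312.Visit

/-! The simulation algorithm as number-theoretic functions, all of them in `LS`. -/

namespace Vale.Agent.P312

def pa (θ : ℕ) : ℕ := θ.unpair.2.unpair.1
def pL (θ : ℕ) : ℕ := θ.unpair.2.unpair.2.unpair.1
def pw (θ : ℕ) : ℕ := θ.unpair.2.unpair.2.unpair.2.unpair.1
def pp (θ : ℕ) : ℕ := θ.unpair.2.unpair.2.unpair.2.unpair.2
def pb (θ : ℕ) : ℕ := pa θ * pa θ
def pt (θ : ℕ) : ℕ := pb θ * pb θ * pa θ
def pG (θ : ℕ) : ℕ := cp θ 2 (pw θ)
def pA (θ : ℕ) : ℕ := (pa θ + 1) * pa θ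
def pC (θ : ℕ) : ℕ := (pa θ + 1) * pw θ
def pX (θ : ℕ) : ℕ := pb θ * pw θ
def pR (θ : ℕ) : ℕ := (pa θ + 1) * pC θ
def pM (θ : ℕ) : ℕ := pR θ + 2 * pX θ
def pP (θ : ℕ) : ℕ := (2 * (pG θ * pA θ) + 2) * pp θ * 2
def pS (θ : ℕ) : ℕ := (pp θ * (pa θ + 1) + 1) * (pp θ * pp θ)
def pY (θ : ℕ) : ℕ := ((cp θ (pG θ) (pa θ + 1) * pa θ + pX θ) * pp θ + 1) * (pp θ * pp θ)

def lvl (θ u : ℕ) : ℕ := if u % 2 = 1 then (u / 2 - 1) / pa θ else (u / 2 - 1) % pA θ
def nlo (θ u : ℕ) : ℕ := if u % 2 = 1 then u / 2 % (pa θ + 1) * pC θ else pR θ + lvl θ u % 2 * pX θ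
def nsz (θ u : ℕ) : ℕ := if u % 2 = 1 then pC θ else pX θ
def nnc (θ u : ℕ) : ℕ := if u % 2 = 1 then u / 2 - lvl θ u * pa θ else pa θ
def noc (θ u c : ℕ) : ℕ := 2 * (lvl θ u * pa θ + c) + 1
def nng (θ u : ℕ) : ℕ := if u % 2 = 1 then cp θ (pG θ) (pa θ + 1) else pX θ
def nnf (θ u : ℕ) : ℕ := if u % 2 = 1 then pa θ else 1
def nout (θ u g k : ℕ) : ℕ :=
  if u % 2 = 1 then
    (if nlo θ u ≤ k ∧ k < nlo θ u + nsz θ u ∧ g.testBit (k - nlo θ u) = true then 1 else 0)
  else if k = nlo θ u + g then 1 else 0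
def nrec (θ u g z v : ℕ) : ℕ :=
  if u % 2 = 1 ∧ v / pa θ = u / 2 then dig g (pG θ) (v % pa θ)
  else dig z (pG θ) (v / pa θ % (pa θ + 1) * (pa θ + 1) + v % pa θ)
def upto (θ u r : ℕ) : ℕ := if u % 2 = 1 then u / 2 * pa θ + r else (lvl θ u + 1) * pa θ * pa θ

def Dir.code : Dir → ℕ
  | .L => 0
  | .S => 1
  | .R => 2

namespace OneTape

variable {σ : Type} (M : OneTape σ)

def nq : ℕ := @Fintype.card M.Q M.finQ
def ng : ℕ := @Fintype.card M.Γ M.finΓ
noncomputable def cq (q : M.Q) : ℕ := @Fintype.equivFin _ M.finQ q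
noncomputable def cg (y : M.Γ) : ℕ := @Fintype.equivFin _ M.finΓ y
noncomputable def dq (y : ℕ) : M.Q :=
  if h : y < M.nq then (@Fintype.equivFin _ M.finQ).symm ⟨y, h⟩ else M.q0
noncomputable def dg (y : ℕ) : M.Γ :=
  if h : y < M.ng then (@Fintype.equivFin _ M.finΓ).symm ⟨y, h⟩ else M.blank
noncomputable def tq (y : ℕ) : ℕ := M.cq (M.δ' (M.dq (y / M.ng)) (M.dg (y % M.ng))).1
noncomputable def tg (y : ℕ) : ℕ := M.cg (M.δ' (M.dq (y / M.ng)) (M.dg (y % M.ng))).2.1
noncomputable def td (y : ℕ) : ℕ := (M.δ' (M.dq (y / M.ng)) (M.dg (y % M.ng))).2.2.code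
noncomputable def th (y : ℕ) : ℕ := ((M.halt (M.dq y)).map fun r => if r then 2 else 1).getD 0
noncomputable def ci : InSym σ → ℕ
  | .sym a => M.cg (M.inp a)
  | _ => M.cg M.blank

noncomputable def lstep' (θ C P y : ℕ) : ℕ :=
  bld θ (pG θ) (pb θ) (fun e => if e = P % pb θ then tab (M.nq * M.ng) M.tg y else dig C (pG θ) e) *
    pG θ + ((P + tab (M.nq * M.ng) M.td y - 1) * M.nq + tab (M.nq * M.ng) M.tq y)

noncomputable def lstep (θ j s : ℕ) : ℕ :=
  if s % pG θ / M.nq / pb θ = j then M.lstep' θ (s / pG θ) (s % pG θ / M.nq)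
    (s % pG θ % M.nq * M.ng + dig (s / pG θ) (pG θ) (s % pG θ / M.nq % pb θ)) else s

noncomputable def visitN (θ C g : ℕ) : ℕ :=
  lp (pt θ) (C * pG θ + g) θ fun _ s => M.lstep θ (g / M.nq / pb θ) s

noncomputable def initB (x : List σ) (θ j : ℕ) : ℕ :=
  bld θ (pG θ) (pb θ) fun e =>
    if pL θ ≤ j * pb θ + e then M.ci (inAt x (j * pb θ + e - pL θ + 1)) else M.cg M.blank

def nblk (θ u g r : ℕ) : ℕ :=
  if u % 2 = 1 then dig g (pG θ) r / M.nq / pb θ else (u / 2 - 1) / pA θ

def nic (θ u g r : ℕ) : ℕ :=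
  if lvl θ u = 0 then 0 else 2 * (M.nblk θ u g r * pA θ + (lvl θ u - 1)) + 2

noncomputable def baseC (x : List σ) (θ u j z : ℕ) : ℕ :=
  if lvl θ u = 0 then M.initB x θ j else rd z (pR θ + (lvl θ u - 1) % 2 * pX θ) (pX θ)

noncomputable def rstep (θ j C g : ℕ) : ℕ :=
  if g / M.nq / pb θ = j then M.visitN θ C g / pG θ else C

noncomputable def blockAt (x : List σ) (θ u g r z : ℕ) : ℕ :=
  lp (upto θ u r - lvl θ u * pa θ * pa θ) (M.baseC x θ u (M.nblk θ u g r) z) θ fun i C =>
    M.rstep θ (M.nblk θ u g r) C (nrec θ u g z (lvl θ u * pa θ * pa θ + i))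

noncomputable def nchi (x : List σ) (θ u g r z : ℕ) : ℕ :=
  if u % 2 = 1 then
    (if (r = 0 → dig g (pG θ) 0 = if u / 2 = 0 then pL θ * M.nq + M.cq M.q0 else
        dig z (pG θ) ((u / 2 - 1) % (pa θ + 1) * (pa θ + 1) + pa θ)) ∧
      M.visitN θ (M.blockAt x θ u g r z) (dig g (pG θ) r) % pG θ = dig g (pG θ) (r + 1) then 1 else 0)
  else if (M.blockAt x θ u g r z).testBit g = true then 1 else 0

noncomputable def cm (x : List σ) (θ : ℕ) : CM where
  p := pp θ
  M := pM θ
  Z := cp θ 2 (pM θ)
  Mm := cp θ (pp θ) (pM θ)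
  GR := pR θ
  Pb := pP θ
  sm := pS θ
  lg := pY θ
  lo := nlo θ
  hi u := nlo θ u + nsz θ u
  nc := nnc θ
  oc := noc θ
  ng := nng θ
  nf := nnf θ
  ic := M.nic θ
  chi := M.nchi x θ
  out := nout θ

def Valid (θ : ℕ) : Prop :=
  1 ≤ pa θ ∧ pA θ * pa θ * pt θ + 1 ≤ pL θ ∧ (pL θ + pA θ * pa θ * pt θ + 1) * M.nq ≤ pG θ ∧
  M.ng ≤ pG θ ∧ 2 ≤ pp θ ∧ (∀ m < pp θ, pp θ % m = 0 → m = 1) ∧ pa θ * pM θ < pp θ ∧
  cp θ (pS θ * pP θ) (pA θ + 1) * cp θ (pY θ * pP θ) (pa θ + 1) * cp θ (pp θ) (pM θ) < θ

noncomputable def lastRec (θ m : ℕ) : ℕ :=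
  bld θ 2 (pw θ) fun k => dig m (pp θ) (nlo θ (2 * (pA θ - 1) + 1) + (pa θ * pw θ + k))

noncomputable def res (x : List σ) (θ : ℕ) : ℕ :=
  tab M.nq M.th (lastRec θ ((M.cm x θ).final θ (2 * (pA θ - 1) + 1)) % M.nq)

end OneTape

/-! ### All of this is in `LS` -/

variable {σ : Type} {A B C D E F G : Fn σ}

instance [LS A] : LS fun x e => pa (A x e) := by unfold pa; infer_instance
instance [LS A] : LS fun x e => pL (A x e) := by unfold pL; infer_instance
instance [LS A] : LS fun x e => pw (A x e) := by unfold pw; infer_instance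
instance [LS A] : LS fun x e => pp (A x e) := by unfold pp; infer_instance
instance [LS A] : LS fun x e => pb (A x e) := by unfold pb; infer_instance
instance [LS A] : LS fun x e => pt (A x e) := by unfold pt; infer_instance
instance [LS A] : LS fun x e => pG (A x e) := by unfold pG; infer_instance
instance [LS A] : LS fun x e => pA (A x e) := by unfold pA; infer_instance
instance [LS A] : LS fun x e => pC (A x e) := by unfold pC; infer_instance
instance [LS A] : LS fun x e => pX (A x e) := by unfold pX; infer_instance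
instance [LS A] : LS fun x e => pR (A x e) := by unfold pR; infer_instance
instance [LS A] : LS fun x e => pM (A x e) := by unfold pM; infer_instance
instance [LS A] : LS fun x e => pP (A x e) := by unfold pP; infer_instance
instance [LS A] : LS fun x e => pS (A x e) := by unfold pS; infer_instance
instance [LS A] : LS fun x e => pY (A x e) := by unfold pY; infer_instance
instance [LS A] [LS B] : LS fun x e => lvl (A x e) (B x e) := by unfold lvl; infer_instance
instance [LS A] [LS B] : LS fun x e => nlo (A x e) (B x e) := by unfold nlo; infer_instance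
instance [LS A] [LS B] : LS fun x e => nsz (A x e) (B x e) := by unfold nsz; infer_instance
instance [LS A] [LS B] : LS fun x e => nnc (A x e) (B x e) := by unfold nnc; infer_instance
instance [LS A] [LS B] [LS C] : LS fun x e => noc (A x e) (B x e) (C x e) := by
  unfold noc; infer_instance
instance [LS A] [LS B] : LS fun x e => nng (A x e) (B x e) := by unfold nng; infer_instance
instance [LS A] [LS B] : LS fun x e => nnf (A x e) (B x e) := by unfold nnf; infer_instance
instance [LS A] [LS B] [LS C] [LS D] : LS fun x e => nout (A x e) (B x e) (C x e) (D x e) := by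
  unfold nout; infer_instance
instance [LS A] [LS B] [LS C] [LS D] [LS E] :
    LS fun x e => nrec (A x e) (B x e) (C x e) (D x e) (E x e) := by
  unfold nrec; infer_instance
instance [LS A] [LS B] [LS C] : LS fun x e => upto (A x e) (B x e) (C x e) := by
  unfold upto; infer_instance

namespace OneTape

variable (M : OneTape σ) [Fintype σ]

instance [hA : LS A] : LS fun x e => M.ci (inAt x (A x e)) := LS.inCode M.ci hA

instance [hA : LS A] [hB : LS B] [hC : LS C] [hD : LS D] :
    LS fun x e => M.lstep' (A x e) (B x e) (C x e) (D x e) :=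
  (show LS fun _ e => M.lstep' (e 0) (e 1) (e 2) (e 3) by unfold lstep'; infer_instance).sub4 hA hB hC hD

instance [LS A] [LS B] [LS C] : LS fun x e => M.lstep (A x e) (B x e) (C x e) := by
  unfold lstep; infer_instance

instance [hA : LS A] [hB : LS B] [hC : LS C] : LS fun x e => M.visitN (A x e) (B x e) (C x e) :=
  (show LS fun _ e => M.visitN (e 0) (e 1) (e 2) by unfold visitN; infer_instance).sub3 hA hB hC

instance [hA : LS A] [hB : LS B] : LS fun x e => M.initB x (A x e) (B x e) :=
  (show LS fun x e => M.initB x (e 0) (e 1) by unfold initB; infer_instance).sub2 hA hB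

instance [LS A] [LS B] [LS C] [LS D] : LS fun x e => M.nblk (A x e) (B x e) (C x e) (D x e) := by
  unfold nblk; infer_instance

instance [LS A] [LS B] [LS C] [LS D] : LS fun x e => M.nic (A x e) (B x e) (C x e) (D x e) := by
  unfold nic; infer_instance

instance [LS A] [LS B] [LS C] [LS D] : LS fun x e => M.baseC x (A x e) (B x e) (C x e) (D x e) := by
  unfold baseC; infer_instance

instance [LS A] [LS B] [LS C] [LS D] : LS fun x e => M.rstep (A x e) (B x e) (C x e) (D x e) := by
  unfold rstep; infer_instance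

instance [hA : LS A] [hB : LS B] [hC : LS C] [hD : LS D] [hE : LS E] :
    LS fun x e => M.blockAt x (A x e) (B x e) (C x e) (D x e) (E x e) :=
  (show LS fun x e => M.blockAt x (e 0) (e 1) (e 2) (e 3) (e 4) by
    unfold blockAt; infer_instance).sub5 hA hB hC hD hE

set_option synthInstance.maxSize 1000 in
instance [LS A] [LS B] [LS C] [LS D] [LS E] :
    LS fun x e => M.nchi x (A x e) (B x e) (C x e) (D x e) (E x e) := by
  unfold nchi; infer_instance

instance [LS A] : LS fun x e => (M.cm x (A x e)).p := by unfold cm; infer_instance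
instance [LS A] : LS fun x e => (M.cm x (A x e)).M := by unfold cm; infer_instance
instance [LS A] : LS fun x e => (M.cm x (A x e)).Z := by unfold cm; infer_instance
instance [LS A] : LS fun x e => (M.cm x (A x e)).Mm := by unfold cm; infer_instance
instance [LS A] : LS fun x e => (M.cm x (A x e)).GR := by unfold cm; infer_instance
instance [LS A] : LS fun x e => (M.cm x (A x e)).Pb := by unfold cm; infer_instance
instance [LS A] : LS fun x e => (M.cm x (A x e)).sm := by unfold cm; infer_instance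
instance [LS A] : LS fun x e => (M.cm x (A x e)).lg := by unfold cm; infer_instance
instance [LS A] [LS B] : LS fun x e => (M.cm x (A x e)).lo (B x e) := by unfold cm; infer_instance
instance [LS A] [LS B] : LS fun x e => (M.cm x (A x e)).hi (B x e) := by
  unfold cm; dsimp only; infer_instance
instance [LS A] [LS B] : LS fun x e => (M.cm x (A x e)).nc (B x e) := by unfold cm; infer_instance
instance [LS A] [LS B] : LS fun x e => (M.cm x (A x e)).ng (B x e) := by unfold cm; infer_instance
instance [LS A] [LS B] : LS fun x e => (M.cm x (A x e)).nf (B x e) := by unfold cm; infer_instance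
instance [LS A] [LS B] [LS C] : LS fun x e => (M.cm x (A x e)).oc (B x e) (C x e) := by
  unfold cm; infer_instance
instance [LS A] [LS B] [LS C] [LS D] : LS fun x e => (M.cm x (A x e)).ic (B x e) (C x e) (D x e) := by
  unfold cm; infer_instance
instance [LS A] [LS B] [LS C] [LS D] : LS fun x e => (M.cm x (A x e)).out (B x e) (C x e) (D x e) := by
  unfold cm; infer_instance
instance [LS A] [LS B] [LS C] [LS D] [LS E] :
    LS fun x e => (M.cm x (A x e)).chi (B x e) (C x e) (D x e) (E x e) := by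
  unfold cm; infer_instance

set_option synthInstance.maxSize 1000 in
instance [LS A] [LS B] [LS C] [LS D] [LS E] [LS F] [LS G] :
    LS fun x e => (M.cm x (A x e)).fac (B x e) (C x e) (D x e) (E x e) (F x e) (G x e) := by
  unfold CM.fac; infer_instance

instance [hA : LS A] [hB : LS B] [hC : LS C] [hD : LS D] [hE : LS E] [hF : LS F] [hG : LS G] :
    LS fun x e => (M.cm x (A x e)).term (B x e) (C x e) (D x e) (E x e) (F x e) (G x e) :=
  (show LS fun x e => (M.cm x (e 0)).term (e 1) (e 2) (e 3) (e 4) (e 5) (e 6) by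
    unfold CM.term; infer_instance).sub7 hA hB hC hD hE hF hG

instance [hA : LS A] [hB : LS B] [hC : LS C] : LS fun x e => (M.cm x (A x e)).npw (B x e) (C x e) :=
  (show LS fun x e => (M.cm x (e 0)).npw (e 1) (e 2) by unfold CM.npw; infer_instance).sub3 hA hB hC

instance {H : Fn σ} [LS A] [LS B] [LS C] [LS D] [LS E] [LS F] [LS G] [LS H] :
    LS fun x e => (M.cm x (A x e)).accN (B x e) (C x e) (D x e) (E x e) (F x e) (G x e) (H x e) := by
  unfold CM.accN; infer_instance

instance {H : Fn σ} [LS A] [LS B] [LS C] [LS D] [LS E] [LS F] [LS G] [LS H] :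
    LS fun x e => (M.cm x (A x e)).locN (B x e) (C x e) (D x e) (E x e) (F x e) (G x e) (H x e) := by
  unfold CM.locN; infer_instance

instance [hA : LS A] [hB : LS B] [hC : LS C] [hD : LS D] [hE : LS E] :
    LS fun x e => (M.cm x (A x e)).addv (B x e) (C x e) (D x e) (E x e) :=
  (show LS fun x e => (M.cm x (e 0)).addv (e 1) (e 2) (e 3) (e 4) by
    unfold CM.addv; infer_instance).sub5 hA hB hC hD hE

instance {H : Fn σ} [LS A] [LS B] [LS C] [LS D] [LS E] [LS F] [LS G] [LS H] :
    LS fun x e => (M.cm x (A x e)).memN (B x e) (C x e) (D x e) (E x e) (F x e) (G x e) (H x e) := by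
  unfold CM.memN; infer_instance

instance [LS A] [LS B] : LS fun x e => (M.cm x (A x e)).sM.base (B x e) := by
  unfold CM.sM CM.base; infer_instance

instance [LS A] [LS B] : LS fun x e => (M.cm x (A x e)).sM.len (B x e) := by
  unfold CM.sM CM.len; infer_instance

instance [LS A] [LS B] [LS C] [LS D] :
    LS fun x e => (M.cm x (A x e)).tgtO (B x e) (C x e) (D x e) := by
  unfold CM.tgtO; infer_instance

set_option synthInstance.maxSize 1000 in
instance [LS A] [LS B] [LS C] : LS fun x e => (M.cm x (A x e)).sM.tgt (B x e) (C x e) := by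
  unfold CM.sM CM.tgt; infer_instance

set_option synthInstance.maxSize 1000 in
instance [LS A] [LS B] [LS C] [LS D] [LS E] :
    LS fun x e => (M.cm x (A x e)).sM.actL (B x e) (C x e) (D x e) (E x e) := by
  unfold CM.sM CM.actL; infer_instance

set_option synthInstance.maxSize 1000 in
instance [LS A] [LS B] [LS C] [LS D] [LS E] :
    LS fun x e => (M.cm x (A x e)).sM.actM (B x e) (C x e) (D x e) (E x e) := by
  unfold CM.sM CM.actM; infer_instance

instance [LS A] : LS fun x e => (M.cm x (A x e)).sM.Pb := by unfold CM.sM; infer_instance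
instance [LS A] : LS fun x e => (M.cm x (A x e)).sM.Lb := by unfold CM.sM; infer_instance
instance [LS A] : LS fun x e => (M.cm x (A x e)).sM.Mm := by unfold CM.sM; infer_instance

instance [LS A] [LS B] [LS C] [LS D] [LS E] :
    LS fun x e => (M.cm x (A x e)).sM.push (B x e) (C x e) (D x e) (E x e) := by
  unfold SM.push; infer_instance

instance [LS A] [LS B] [LS C] [LS D] [LS E] [LS F] :
    LS fun x e => (M.cm x (A x e)).sM.step' (B x e) (C x e) (D x e) (E x e) (F x e) := by
  unfold SM.step'; infer_instance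

instance [LS A] [LS B] [LS C] [LS D] :
    LS fun x e => (M.cm x (A x e)).sM.step'' (B x e) (C x e) (D x e) := by
  unfold SM.step''; infer_instance

instance [LS A] [LS B] : LS fun x e => (M.cm x (A x e)).sM.step (B x e) := by
  unfold SM.step; infer_instance

instance [hA : LS A] [hB : LS B] : LS fun x e => lastRec (A x e) (B x e) :=
  (show LS fun _ e => lastRec (e 0) (e 1) by unfold lastRec; infer_instance).sub2 hA hB

instance : LS fun x e => M.res x (e 0) := by
  unfold res CM.final; infer_instance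

set_option synthInstance.maxSize 1000 in
instance : LP (σ := σ) fun _ e => M.Valid (e 0) := by
  unfold Valid; infer_instance

end OneTape

end Vale.Agent.P312
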