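import Mathlib.Data.Fintype.Basic
import Mathlib.Data.Finset.Card
import Mathlib.Data.Real.Basic
import Mathlib.Logic.Function.Iterate

/-! One-tape time and multitape space. -/

namespace Vale.Agent.P312

/-- Head moves: left, stay, right. -/
inductive Dir
  | L
  | S
  | R

/-- The displacement of a head move. -/
def Dir.toInt : Dir → ℤ
  | .L => -1
  | .S => 0
  | .R => 1

/-- A deterministic one-tape Turing machine over the input alphabet `σ`. A state `q` is halting
when `halt q = some b` (`b = true` accepts, `b = false` rejects). -/
structure OneTape (σ : Type) where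
  Q : Type
  Γ : Type
  [finQ : Fintype Q]
  [finΓ : Fintype Γ]
  blank : Γ
  inp : σ → Γ
  inp_inj : Function.Injective inp
  inp_ne : ∀ a, inp a ≠ blank
  q0 : Q
  halt : Q → Option Bool
  δ : Q → Γ → Q × Γ × Dir

/-- A configuration: state, two-way infinite tape, head position. -/
structure OneTape.Cfg {σ : Type} (M : OneTape σ) where
  q : M.Q
  tape : ℤ → M.Γ
  head : ℤ

/-- The input is written on cells `0, 1, ...`, all other cells are blank, the head is on cell `0`. -/
def OneTape.init {σ : Type} (M : OneTape σ) (x : List σ) : M.Cfg where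
  q := M.q0
  tape i := if 0 ≤ i then (x[i.toNat]?.map M.inp).getD M.blank else M.blank
  head := 0

/-- One step (halted configurations do not change). -/
def OneTape.step {σ : Type} (M : OneTape σ) (c : M.Cfg) : M.Cfg :=
  if (M.halt c.q).isSome then c else
    { q := (M.δ c.q (c.tape c.head)).1
      tape := Function.update c.tape c.head (M.δ c.q (c.tape c.head)).2.1
      head := c.head + (M.δ c.q (c.tape c.head)).2.2.toInt }

/-- `L` is decided by a one-tape machine that halts within `t n` steps on inputs of length `n`. -/
def TIME1 {σ : Type} (t : ℕ → ℕ) : Set (Set (List σ)) :=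
  {L | ∃ M : OneTape σ, ∀ x : List σ, ∃ b : Bool,
    M.halt (M.step^[t x.length] (M.init x)).q = some b ∧ (b = true ↔ x ∈ L)}

/-- Symbols on the read-only input tape: left end marker, right end marker, input letter. -/
inductive InSym (σ : Type)
  | lft
  | rgt
  | sym (a : σ)

/-- The symbol at position `i` of the read-only tape holding `x` between end markers. -/
def inAt {σ : Type} (x : List σ) : ℕ → InSym σ
  | 0 => .lft
  | i + 1 => (x[i]?.map InSym.sym).getD .rgt

/-- The input head stays within positions `0, ..., n + 1`. -/
def inMove (n : ℕ) (i : ℕ) : Dir → ℕ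
  | .L => i - 1
  | .S => i
  | .R => min (i + 1) (n + 1)

/-- A deterministic multitape Turing machine with a read-only input tape and `k` work tapes. -/
structure MultiTape (σ : Type) where
  k : ℕ
  Q : Type
  Γ : Type
  [finQ : Fintype Q]
  [finΓ : Fintype Γ]
  blank : Γ
  q0 : Q
  halt : Q → Option Bool
  δ : Q → InSym σ → (Fin k → Γ) → Q × (Fin k → Γ × Dir) × Dir

/-- A configuration: state, work tapes, work heads, input head. -/
structure MultiTape.Cfg {σ : Type} (M : MultiTape σ) where
  q : M.Q
  tape : Fin M.k → ℤ → M.Γ
  head : Fin M.k → ℤ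
  ip : ℕ

/-- Blank work tapes, all heads at position `0`. -/
def MultiTape.init {σ : Type} (M : MultiTape σ) : M.Cfg where
  q := M.q0
  tape _ _ := M.blank
  head _ := 0
  ip := 0

/-- One step on input `x` (halted configurations do not change). -/
def MultiTape.step {σ : Type} (M : MultiTape σ) (x : List σ) (c : M.Cfg) : M.Cfg :=
  if (M.halt c.q).isSome then c else
    { q := (M.δ c.q (inAt x c.ip) fun j => c.tape j (c.head j)).1
      tape := fun j => Function.update (c.tape j) (c.head j)
        ((M.δ c.q (inAt x c.ip) fun j => c.tape j (c.head j)).2.1 j).1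
      head := fun j => c.head j + ((M.δ c.q (inAt x c.ip) fun j => c.tape j (c.head j)).2.1 j).2.toInt
      ip := inMove x.length c.ip (M.δ c.q (inAt x c.ip) fun j => c.tape j (c.head j)).2.2 }

/-- `L` is decided by a multitape machine that halts on every input and whose work heads visit
`O(s n)` cells in total on inputs of length `n`. -/
def SPACE {σ : Type} (s : ℕ → ℝ) : Set (Set (List σ)) :=
  {L | ∃ (M : MultiTape σ) (c : ℝ), ∀ x : List σ,
    (∃ (m : ℕ) (b : Bool), M.halt ((M.step x)^[m] M.init).q = some b ∧ (b = true ↔ x ∈ L)) ∧
    ∃ V : Finset (Fin M.k × ℤ), (∀ (m : ℕ) (j : Fin M.k), (j, ((M.step x)^[m] M.init).head j) ∈ V) ∧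
      (V.card : ℝ) ≤ c * s x.length + c}

end Vale.Agent.P312
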