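import Vale.Agent.P312.Node
import Mathlib.NumberTheory.Bertrand
import Mathlib.Analysis.SpecialFunctions.Pow.Real
import Mathlib.Analysis.Complex.ExponentialBounds

/-! Existence of good parameters and the space bound. -/

namespace Vale.Agent.P312

lemma bmul {x y m n : ℕ} (hx : x ≤ 2 ^ m) (hy : y ≤ 2 ^ n) : x * y ≤ 2 ^ (m + n) := by
  rw [pow_add]; exact Nat.mul_le_mul hx hy

lemma bmono {x m n : ℕ} (hx : x ≤ 2 ^ m) (h : m ≤ n) : x ≤ 2 ^ n :=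
  hx.trans (Nat.pow_le_pow_right (by norm_num) h)

lemma badd {x y m : ℕ} (hx : x ≤ 2 ^ m) (hy : y ≤ 2 ^ m) : x + y ≤ 2 ^ (m + 1) := by
  rw [pow_succ]; omega

lemma bpow {x m : ℕ} (hx : x ≤ 2 ^ m) (k : ℕ) : x ^ k ≤ 2 ^ (m * k) := by
  rw [pow_mul]; exact Nat.pow_le_pow_left hx k

lemma bone (m : ℕ) : 1 ≤ 2 ^ m := Nat.one_le_two_pow

lemma bpair {x y m : ℕ} (hx : x ≤ 2 ^ m) (hy : y ≤ 2 ^ m) : Nat.pair x y ≤ 2 ^ ((m + 1) * 2) :=
  (Nat.pair_lt_max_add_one_sq x y).le.trans (bpow (badd (max_le hx hy) (bone m)) 2)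

lemma poly_aux {a w : ℕ} (ha : 1 ≤ a) (w1 : 10 ≤ w) :
    (a + 1) * ((a + 1) * w) + 2 * (a * a * w) ≤ 6 * (a * a * w) ∧ 10 * w ≤ a * a * (w * w) ∧
    (8 * w + 8 * w) * ((a + 1) * a + 1) ≤ 48 * (a * a * (w * w)) ∧
    (w * (a + 1) + 12 * w + 8 * w) * (a + 1) ≤ 44 * (a * a * (w * w)) ∧
    w ≤ (a + 1) * ((a + 1) * w) + 2 * (a * a * w) ∧
    a ^ 5 < (a + 1) * a * a * (a * a) := by
  have q1 : w ≤ w * w := by nlinarith
  have q2 : 1 ≤ a * a := Nat.mul_pos ha ha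
  have q3 : a ≤ a * a := by nlinarith
  have q4 : w * w ≤ a * a * (w * w) := Nat.le_mul_of_pos_left _ q2
  refine ⟨?_, by nlinarith, ?_, ?_, by nlinarith, ?_⟩
  · have : (a + 1) * (a + 1) ≤ 4 * (a * a) := by nlinarith
    nlinarith
  · calc _ ≤ 16 * (w * w) * (3 * (a * a)) := Nat.mul_le_mul (by omega) (by nlinarith)
      _ = _ := by ring
  · calc _ = w * ((a + 21) * (a + 1)) := by ring
      _ ≤ (w * w) * (44 * (a * a)) := Nat.mul_le_mul q1 (by nlinarith)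
      _ = _ := by ring
  · have : 0 < a ^ 4 := by positivity
    nlinarith

lemma size_bound {a l c w m p S P Y J θ L : ℕ} (ha : 1 ≤ a) (l0 : 1 ≤ l) (a1 : a + 1 ≤ 2 ^ l)
    (hw : w = 8 * l + 2 + c) (hm : m = (a + 1) * ((a + 1) * w) + 2 * (a * a * w))
    (p2 : p ≤ 2 * (a * m)) (hS : S = (p * (a + 1) + 1) * (p * p))
    (hP : P = (2 * (2 ^ w * ((a + 1) * a)) + 2) * p * 2)
    (hY : Y = (((2 ^ w) ^ (a + 1) * a + a * a * w) * p + 1) * (p * p))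
    (hJ : J = (S * P) ^ ((a + 1) * a + 1) * (Y * P) ^ (a + 1) * p ^ m + 1)
    (hθ : θ = Nat.pair J (Nat.pair a (Nat.pair L (Nat.pair w p)))) (hL : L ≤ 2 ^ (8 * l + 2)) :
    Nat.log 2 (θ + 1) + 1 ≤ 214 * (10 + c) ^ 2 * (a ^ 2 * l ^ 2) := by
  have a0 : a ≤ 2 ^ l := by omega
  have w1 : 10 ≤ w := by omega
  have b1 : a + 1 ≤ 2 ^ w := bmono a1 (by omega)
  have b0 : a ≤ 2 ^ w := by omega
  have b2 : w ≤ 2 ^ w := Nat.lt_two_pow_self.le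
  obtain ⟨m2, q4, r1, r2, -⟩ := poly_aux ha w1
  rw [← hm] at m2
  have b3 : p ≤ 2 ^ (2 * w) := by
    refine bmono (p2.trans (bmul (m := 1) le_rfl (bmul a0 (m2.trans
      (bmul (m := 3) (by norm_num) (bmul (bmul a0 a0) b2)))))) (by omega)
  have b4 : S ≤ 2 ^ (8 * w) := hS ▸ bmono (bmul (badd (bmul b3 b1) (bone _)) (bmul b3 b3)) (by omega)
  have b5 : P ≤ 2 ^ (8 * w) := hP ▸ bmono (bmul (n := 1) (bmul (badd (bmul (m := 1) le_rfl
    (bmul le_rfl (bmul b1 b0))) (bmono (m := 1) le_rfl (by omega))) b3) le_rfl) (by omega)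
  have b6 : Y ≤ 2 ^ (w * (a + 1) + 12 * w) := hY ▸ bmono (bmul (badd (bmul (badd
    (m := w * (a + 1) + 3 * w) (bmono (bmul (bpow le_rfl _) b0) (by omega))
    (bmono (bmul (bmul b0 b0) b2) (by omega))) b3) (bone _)) (bmul b3 b3)) (by omega)
  have b7 : J ≤ 2 ^ (105 * (a * a * (w * w))) := hJ ▸ bmono (badd (bmul (bmul (bpow (bmul b4 b5) _)
    (bpow (bmul b6 b5) _)) (bpow b3 _)) (bone _)) (by
      have r3 : 2 * w * m ≤ 12 * (a * a * (w * w)) := by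
        calc _ ≤ 2 * w * (6 * (a * a * w)) := Nat.mul_le_mul_left _ m2
          _ = _ := by ring
      omega)
  have b8 : θ ≤ 2 ^ ((105 * (a * a * (w * w)) + 1) * 2) := hθ ▸ bpair b7 (bmono (bpair
    (bmono b0 (n := ((2 * w + 1) * 2 + 1) * 2) (by omega)) (bpair
    (bmono hL (by omega)) (bpair (bmono b2 (by omega)) b3))) (by omega))
  have b9 := Nat.log_mono_right (b := 2) (badd b8 (bone _))
  rw [Nat.log_pow (by norm_num)] at b9
  have b10 : w ≤ (10 + c) * l := by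
    have := Nat.le_mul_of_pos_right c l0
    rw [add_mul]; omega
  calc _ ≤ 214 * (a * a * (w * w)) := by omega
    _ ≤ 214 * (a * a * (((10 + c) * l) * ((10 + c) * l))) := by gcongr
    _ = _ := by ring

attribute [local irreducible] pa pL pw pp pb pt pG pA pC pX pR pM pP pS pY

namespace OneTape

variable {σ : Type} (M : OneTape σ)

lemma exists_valid (x : List σ) {T a : ℕ} (ha : 1 ≤ a) (hT : T ≤ a ^ 5)
    (hh : (M.halt (M.step^[T] (M.init x)).q).isSome) :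
    ∃ θ, M.Valid θ ∧ M.cf θ x (pA θ * pa θ) = M.step^[T] (M.init x) ∧ 1 ≤ θ ∧
      Nat.log 2 (θ + 1) + 1 ≤ 214 * (10 + (M.nq + M.ng)) ^ 2 * (a ^ 2 * (Nat.log 2 a + 1) ^ 2) := by
  obtain ⟨L, l1, l2, l3⟩ := M.exists_offset (a * a) x T ((a + 1) * a * a * (a * a * (a * a) * a) + 1)
    (Nat.mul_pos ha ha)
  obtain ⟨l, hl⟩ : ∃ l, l = Nat.log 2 a + 1 := ⟨_, rfl⟩
  obtain ⟨c, hc⟩ : ∃ c, c = M.nq + M.ng := ⟨_, rfl⟩
  obtain ⟨w, hw⟩ : ∃ w, w = 8 * l + 2 + c := ⟨_, rfl⟩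
  obtain ⟨m, hm⟩ : ∃ m, m = (a + 1) * ((a + 1) * w) + 2 * (a * a * w) := ⟨_, rfl⟩
  have w1 : 10 ≤ w := by omega
  obtain ⟨p, hp, p1, p2⟩ := Nat.exists_prime_lt_and_le_two_mul (a * m) (by
    rw [hm]; positivity)
  obtain ⟨S, hS⟩ : ∃ S, S = (p * (a + 1) + 1) * (p * p) := ⟨_, rfl⟩
  obtain ⟨P, hP⟩ : ∃ P, P = (2 * (2 ^ w * ((a + 1) * a)) + 2) * p * 2 := ⟨_, rfl⟩
  obtain ⟨Y, hY⟩ : ∃ Y, Y = (((2 ^ w) ^ (a + 1) * a + a * a * w) * p + 1) * (p * p) := ⟨_, rfl⟩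
  obtain ⟨J, hJ⟩ : ∃ J, J = (S * P) ^ ((a + 1) * a + 1) * (Y * P) ^ (a + 1) * p ^ m + 1 := ⟨_, rfl⟩
  obtain ⟨θ, hθ⟩ : ∃ θ, θ = Nat.pair J (Nat.pair a (Nat.pair L (Nat.pair w p))) := ⟨_, rfl⟩
  have e1 : pa θ = a := by simp [pa, hθ]
  have e2 : pL θ = L := by simp [pL, hθ]
  have e3 : pw θ = w := by simp [pw, hθ]
  have e4 : pp θ = p := by simp [pp, hθ]
  have e5 : J ≤ θ := hθ ▸ Nat.left_le_pair _ _
  have p0 := hp.two_le
  have m1 : w ≤ m := hm ▸ (poly_aux ha w1).2.2.2.2.1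
  have e6 : pG θ = 2 ^ w := by
    rw [pG, e3]
    refine min_eq_left (le_trans ?_ e5)
    have z0 : 0 < p := by omega
    have z1 : 0 < S := hS ▸ Nat.mul_pos (by omega) (Nat.mul_pos z0 z0)
    have z2 : 0 < P := hP ▸ Nat.mul_pos (Nat.mul_pos (by omega) z0) (by omega)
    have z3 : 0 < Y := hY ▸ Nat.mul_pos (by omega) (Nat.mul_pos z0 z0)
    have : 0 < (S * P) ^ ((a + 1) * a + 1) * (Y * P) ^ (a + 1) :=
      Nat.mul_pos (pow_pos (Nat.mul_pos z1 z2) _) (pow_pos (Nat.mul_pos z3 z2) _)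
    have h1 : 2 ^ w ≤ p ^ m := (Nat.pow_le_pow_right (by norm_num) m1).trans (Nat.pow_le_pow_left p0 _)
    rw [hJ]
    exact (h1.trans (Nat.le_mul_of_pos_left _ this)).trans (by omega)
  have e7 : pM θ = m := by simp only [pM, pR, pC, pX, pb, e1, e3, hm]
  have a1 : a + 1 ≤ 2 ^ l := hl ▸ Nat.lt_pow_succ_log_self (by norm_num) a
  have a0 : a ≤ 2 ^ l := by omega
  have n1 : (a + 1) * a * a * (a * a * (a * a) * a) ≤ 2 ^ (8 * l) :=
    bmono (bmul (bmul (bmul a1 a0) a0) (bmul (bmul (bmul a0 a0) (bmul a0 a0)) a0)) (by omega)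
  have n2 : a * a ≤ 2 ^ (8 * l) := bmono (bmul a0 a0) (by omega)
  have n3 : L + (a + 1) * a * a * (a * a * (a * a) * a) + 1 ≤ 2 ^ (8 * l + 2) := by
    have := bone (8 * l)
    rw [pow_add]; omega
  have n4 : c ≤ 2 ^ c := Nat.lt_two_pow_self.le
  refine ⟨θ, ?_, ?_, by omega, ?_⟩
  · simp only [Valid, pA, pt, pb, pS, pP, pY, pX, e1, e2, e3, e4, e6, e7, ← hS, ← hP]
    refine ⟨ha, l1, hw ▸ bmul n3 (by omega), bmono (show M.ng ≤ 2 ^ c by omega) (by omega), p0,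
      fun k hk h0 => (Nat.prime_def_lt.1 hp).2 k hk (Nat.dvd_of_mod_eq_zero h0), p1, ?_⟩
    refine lt_of_lt_of_le (Nat.lt_succ_of_le ?_) (hJ ▸ e5)
    refine Nat.mul_le_mul (Nat.mul_le_mul (min_le_left _ _) ((min_le_left _ _).trans
      (Nat.pow_le_pow_left (Nat.mul_le_mul_right _ ?_) _))) (min_le_left _ _)
    rw [hY]
    gcongr
    exact min_le_left _ _
  · simp only [cf, pA, pt, pb, e1, e2]
    refine M.cv_halt _ _ _ x (by rw [show a * a * (a * a) * a = a ^ 5 by ring]; exact hT) hh ?_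
    exact lt_of_mul_lt_mul_right (a := a * a) (lt_of_le_of_lt (l3.trans hT)
      (poly_aux ha w1).2.2.2.2.2) (Nat.zero_le _)
  · exact hc ▸ hl ▸ size_bound ha (by omega) a1 hw hm p2 hS hP hY hJ hθ (by omega)

theorem sim_nat [Fintype σ] : ∃ (N : MultiTape σ) (c : ℕ), ∀ x T r a,
    M.halt (M.step^[T] (M.init x)).q = some r → 1 ≤ a → T ≤ a ^ 5 →
    (∃ m, N.halt ((N.step x)^[m] N.init).q = some r) ∧
      ∃ V : Finset (Fin N.k × ℤ), (∀ (m : ℕ) j, (j, ((N.step x)^[m] N.init).head j) ∈ V) ∧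
        V.card ≤ c * (a ^ 2 * (Nat.log 2 a + 1) ^ 2) := by
  classical
  obtain ⟨N, c, h⟩ := LS.space (fun x θ => if M.Valid θ ∧ M.res x θ ≠ 0 then 0 else 1)
    (fun x θ => if M.res x θ = 2 then 1 else 0) (by infer_instance) (by infer_instance)
  refine ⟨N, c * (214 * (10 + (M.nq + M.ng)) ^ 2), fun x T r a hr ha hT => ?_⟩
  obtain ⟨θ, v1, v2, v3, v4⟩ := M.exists_valid x ha hT (by simp [hr])
  obtain ⟨W, w1, ⟨m, w2⟩, V, w3, w4⟩ := h x (θ - 1) (by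
    rw [Nat.sub_add_cancel v3, if_pos ⟨v1, by rw [v1.fx.res_eq, v2, hr]; cases r <;> simp⟩])
  refine ⟨⟨m, ?_⟩, V, w3, w4.trans ?_⟩
  · have ⟨u1, u2⟩ : M.Valid W ∧ M.res x W ≠ 0 := by
      by_contra hc; simp [hc] at w1
    obtain ⟨k, hk⟩ := M.cv_run (pL W) (pb W) (pt W) x (pA W * pa W)
    rw [w2]
    rw [u1.fx.res_eq, cf, hk] at u2 ⊢
    cases h1 : M.halt (M.step^[k] (M.init x)).q with
    | none => simp [h1] at u2
    | some r' =>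
      rw [M.halt_unique _ hr h1]
      cases r' <;> simp
  · rw [mul_assoc, show θ - 1 + 2 = θ + 1 by omega]
    exact Nat.mul_le_mul_left _ v4

end OneTape

lemma exists_a (T : ℕ) : ∃ a : ℕ, 1 ≤ a ∧ T ≤ a ^ 5 ∧
    ((a ^ 2 * (Nat.log 2 a + 1) ^ 2 : ℕ) : ℝ) ≤ 36 * ((T : ℝ) ^ (2 / 5 : ℝ) * Real.log T ^ 2) + 1 := by
  by_cases hT : T ≤ 1
  · refine ⟨1, le_rfl, by simpa, ?_⟩
    simp only [one_pow, Nat.log_one_right, zero_add, mul_one, Nat.cast_one, le_add_iff_nonneg_left]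
    positivity
  have hT2 : (2 : ℝ) ≤ T := by exact_mod_cast (by omega : 2 ≤ T)
  set y := (T : ℝ) ^ (1 / 5 : ℝ) with hy
  have y1 : 1 ≤ y := Real.one_le_rpow (by linarith) (by norm_num)
  have y5 : y ^ 5 = T := by rw [hy, ← Real.rpow_natCast, ← Real.rpow_mul (by linarith)]; norm_num
  have y2 : y ^ 2 = (T : ℝ) ^ (2 / 5 : ℝ) := by
    rw [hy, ← Real.rpow_natCast, ← Real.rpow_mul (by linarith)]; norm_num
  have y3 : y ≤ T := by rw [← y5]; exact le_self_pow₀ y1 (by norm_num)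
  have a1 := Nat.le_ceil y
  have a2 := Nat.ceil_lt_add_one (show 0 ≤ y by linarith)
  have a3 : ⌈y⌉₊ ≤ T := Nat.ceil_le.2 y3
  have a0 : 1 ≤ ⌈y⌉₊ := by exact_mod_cast y1.trans a1
  refine ⟨⌈y⌉₊, a0, ?_, ?_⟩
  · have : (T : ℝ) ≤ (⌈y⌉₊ : ℝ) ^ 5 := y5 ▸ pow_le_pow_left₀ (by linarith) a1 5
    exact_mod_cast this
  have l1 : (Nat.log 2 ⌈y⌉₊ : ℝ) * Real.log 2 ≤ Real.log T := by
    rw [← Real.log_pow]
    refine Real.log_le_log (by positivity) ?_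
    exact_mod_cast (Nat.pow_log_le_self 2 (by omega)).trans a3
  have l2 : Real.log 2 ≤ Real.log T := Real.log_le_log (by norm_num) hT2
  have l3 := Real.log_two_gt_d9
  have l4 : (Nat.log 2 ⌈y⌉₊ : ℝ) + 1 ≤ 3 * Real.log T := by
    have : (0 : ℝ) ≤ Nat.log 2 ⌈y⌉₊ := by positivity
    nlinarith
  push_cast
  rw [← y2]
  calc _ ≤ (2 * y) ^ 2 * (3 * Real.log T) ^ 2 := by gcongr; linarith
    _ ≤ _ := by nlinarith

theorem time_space {σ : Type} [Fintype σ] (t : ℕ → ℕ) :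
    TIME1 (σ := σ) t ⊆ SPACE fun n => (t n : ℝ) ^ (2 / 5 : ℝ) * Real.log (t n) ^ 2 := by
  rintro L ⟨M, hM⟩
  obtain ⟨N, c, h⟩ := M.sim_nat
  refine ⟨N, 36 * c, fun x => ?_⟩
  obtain ⟨r, h1, h2⟩ := hM x
  obtain ⟨a, a1, a2, a3⟩ := exists_a (t x.length)
  obtain ⟨⟨m, hm⟩, V, v1, v2⟩ := h x _ r a h1 a1 a2
  refine ⟨⟨m, r, hm, h2⟩, V, v1, ?_⟩
  have v3 : (V.card : ℝ) ≤ c * ((a ^ 2 * (Nat.log 2 a + 1) ^ 2 : ℕ) : ℝ) := by exact_mod_cast v2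
  have : (0 : ℝ) ≤ c := by positivity
  nlinarith [mul_le_mul_of_nonneg_left a3 this]

lemma space_mono {σ : Type} {s s' : ℕ → ℝ} (K : ℝ) (h0 : ∀ n, 0 ≤ s n) (h0' : ∀ n, 0 ≤ s' n)
    (h : ∀ n, s n ≤ K * s' n) : SPACE (σ := σ) s ⊆ SPACE s' := by
  rintro L ⟨N, c, hN⟩
  refine ⟨N, |c| * |K| + |c|, fun x => ⟨(hN x).1, ?_⟩⟩
  obtain ⟨V, v1, v2⟩ := (hN x).2
  refine ⟨V, v1, v2.trans ?_⟩
  have a1 := le_abs_self c
  have a2 := abs_nonneg c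
  have a3 := abs_nonneg K
  have a4 : s x.length ≤ |K| * s' x.length :=
    (h _).trans (mul_le_mul_of_nonneg_right (le_abs_self K) (h0' _))
  have := h0 x.length
  have := h0' x.length
  nlinarith [mul_le_mul_of_nonneg_left a4 a2, mul_nonneg a2 a3, mul_nonneg a2 (h0' x.length)]

theorem time_space_pow {σ : Type} [Fintype σ] (t : ℕ → ℕ) {e : ℝ} (he : 2 / 5 < e) :
    TIME1 (σ := σ) t ⊆ SPACE fun n => (t n : ℝ) ^ e := by
  set d := (e - 2 / 5) / 2 with hd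
  have d0 : 0 < d := by linarith
  refine (time_space t).trans (space_mono (1 / d ^ 2) (fun n => by positivity) (fun n => by positivity)
    fun n => ?_)
  rcases Nat.eq_zero_or_pos (t n) with h0 | h0
  · simp only [h0, Nat.cast_zero, Real.log_zero]
    norm_num
    positivity
  have h1 : (1 : ℝ) ≤ t n := by exact_mod_cast h0
  have l1 := Real.log_le_rpow_div (show (0 : ℝ) ≤ t n by linarith) d0
  have l0 := Real.log_nonneg h1
  calc _ ≤ (t n : ℝ) ^ (2 / 5 : ℝ) * ((t n : ℝ) ^ d / d) ^ 2 := by gcongr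
    _ = _ := by
      rw [div_pow, ← Real.rpow_natCast ((t n : ℝ) ^ d), ← Real.rpow_mul (by linarith), ← mul_div_assoc,
        ← Real.rpow_add (by linarith), show 2 / 5 + d * ((2 : ℕ) : ℝ) = e by rw [hd]; push_cast; ring]
      ring

end Vale.Agent.P312
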