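import Vale.Agent.P312.Reg

/-! Functions computable in space logarithmic in their numerical arguments. -/

namespace Vale.Agent.P312

open Function

variable {σ : Type} {x : List σ} {B : ℕ}

lemma Does.cg {p : TP σ} {g i g' i' h h'} (H : Does x B p g i g' i') (e : h = g) (e' : h' = g') :
    Does x B p h i h' i' := by
  subst e e'; exact H

def clr (r : ℕ) : TP σ := whl r (flp r false)

lemma does_clr {r g i} : Does x B (clr r) g i (update g r 0) i := by
  have := does_whl (x := x) (B := B) (r := r) (b := flp r false) (g r)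
    (fun m => update g r (g r - m)) (fun _ => i) (fun m hm => ⟨by simp; omega,
      (does_dec (by simp; omega)).cg rfl (by simp; rfl)⟩) (by simp)
  simpa [clr] using this

def mov (r s : ℕ) : TP σ := whl r (.seq (flp r false) (flp s true))

lemma does_mov {r s g i} (hrs : r ≠ s) (h : g s + g r < 2 ^ (B - 1)) :
    Does x B (mov r s) g i (update (update g r 0) s (g s + g r)) i := by
  have := does_whl (x := x) (B := B) (r := r) (b := .seq (flp r false) (flp s true)) (g r)
    (fun m => update (update g r (g r - m)) s (g s + m)) (fun _ => i) (fun m hm => ⟨by simp [hrs]; omega,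
      (does_seq (does_dec (by simp [hrs]; omega)) (does_inc (by simp [hrs.symm]; omega))).cg rfl (by
        funext j; simp only [update_apply]; split_ifs <;> omega)⟩) (by simp [hrs])
  simpa [mov] using this

def cpy (r s t : ℕ) : TP σ :=
  .seq (whl r (.seq (flp r false) (.seq (flp s true) (flp t true)))) (mov t r)

lemma does_cpy {r s t g i} (hrs : r ≠ s) (hrt : r ≠ t) (hst : s ≠ t) (hs : g s = 0) (ht : g t = 0)
    (h : g r < 2 ^ (B - 1)) : Does x B (cpy r s t) g i (update g s (g r)) i := by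
  have := does_whl (x := x) (B := B) (r := r)
    (b := .seq (flp r false) (.seq (flp s true) (flp t true))) (g r)
    (fun m => update (update (update g r (g r - m)) s m) t m) (fun _ => i)
    (fun m hm => ⟨by simp [hrs, hrt]; omega,
      (does_seq (does_dec (by simp [hrs, hrt]; omega)) (does_seq
        (does_inc (by simp [hrs.symm, hst]; omega))
        (does_inc (by simp [hrt.symm, hst.symm]; omega)))).cg rfl (by
        funext j; simp only [update_apply]; split_ifs <;> omega)⟩) (by simp [hrs, hrt])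
  refine (does_seq (this.cg ?_ rfl) (does_mov hrt.symm (by simp [hrs, hrt]; omega))).cg rfl ?_
  · funext j; simp only [update_apply]; split_ifs <;> simp_all
  · funext j; simp only [update_apply]; split_ifs <;> simp_all

abbrev Fn (σ : Type) := List σ → (ℕ → ℕ) → ℕ

/-- The program `p` computes `F` from the registers `ρ i` into register `β`. -/
def Comp (F : Fn σ) (c : ℕ) (ρ : ℕ → ℕ) (β : ℕ) (p : TP σ) : Prop :=
  ∀ x M g B, 2 ≤ M → (∀ i, g (ρ i) ≤ M) → (∀ r, β ≤ r → g r = 0) → M ^ c < 2 ^ (B - 1) →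
    Does x B p g 0 (update g β (F x fun i => g (ρ i))) 0

def Bd (F : Fn σ) (c : ℕ) : Prop := ∀ x M e, 2 ≤ M → (∀ i, e i ≤ M) → F x e ≤ M ^ c

class LS (F : Fn σ) : Prop where
  out : ∃ c, Bd F c ∧ ∀ ρ β, (∀ i, ρ i < β) → ∃ p, Comp F c ρ β p

lemma pow_mono {M a b : ℕ} (hM : 2 ≤ M) (h : a ≤ b) : M ^ a ≤ M ^ b :=
  Nat.pow_le_pow_right (by omega) h

lemma le_pow {M a : ℕ} (hM : 2 ≤ M) : M ≤ M ^ (a + 1) := by
  simpa using pow_mono hM (show 1 ≤ a + 1 by omega)

lemma LS.of_eq {F G : Fn σ} (h : LS F) (e : ∀ x v, G x v = F x v) : LS G := by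
  have : G = F := by funext x v; exact e x v
  rwa [this]

lemma LS.zero : LS (σ := σ) fun _ _ => 0 := by
  refine ⟨0, fun _ _ _ _ _ => by simp, fun ρ β _ => ⟨inMv .S, fun x M g B _ _ h _ => ?_⟩⟩
  exact does_inMv.cg rfl (by rw [← h β le_rfl]; simp)

instance LS.var (i : ℕ) : LS (σ := σ) fun _ e => e i := by
  refine ⟨1, fun _ _ _ _ h => by simpa using h i, fun ρ β hρ => ⟨cpy (ρ i) β (β + 1), ?_⟩⟩
  intro x M g B _ h1 h2 h3
  have := hρ i
  have := h1 i
  exact does_cpy (by omega) (by omega) (by omega) (h2 _ le_rfl) (h2 _ (by omega))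
    (by rw [pow_one] at h3; omega)

lemma LS.succ {F : Fn σ} (h : LS F) : LS fun x e => F x e + 1 := by
  obtain ⟨c, hb, h⟩ := h
  have key : ∀ x M e, 2 ≤ M → (∀ i, e i ≤ M) → F x e + 1 ≤ M ^ (c + 1) := by
    intro x M e hM he
    have := hb x M e hM he
    have : 0 < M ^ c := by positivity
    rw [pow_succ]; nlinarith
  refine ⟨c + 1, key, fun ρ β hρ => ?_⟩
  obtain ⟨p, hp⟩ := h ρ β hρ
  refine ⟨.seq p (flp β true), fun x M g B hM h1 h2 h3 => ?_⟩
  have := pow_mono hM (show c ≤ c + 1 by omega)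
  have := key x M _ hM h1
  exact (does_seq (hp x M g B hM h1 h2 (by omega)) (does_inc (by simp; omega))).cg rfl (by simp)

lemma LS.ren {F : Fn σ} (h : LS F) (π : ℕ → ℕ) : LS fun x e => F x fun i => e (π i) := by
  obtain ⟨c, hb, h⟩ := h
  refine ⟨c, fun x M e hM he => hb x M _ hM fun i => he _, fun ρ β hρ => ?_⟩
  obtain ⟨p, hp⟩ := h (fun i => ρ (π i)) β fun i => hρ _
  exact ⟨p, fun x M g B hM h1 h2 h3 => hp x M g B hM (fun i => h1 _) h2 h3⟩

def cons (a : ℕ) (e : ℕ → ℕ) : ℕ → ℕ
  | 0 => a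
  | i + 1 => e i

lemma cons_le {a M : ℕ} {e : ℕ → ℕ} (ha : a ≤ M) (he : ∀ i, e i ≤ M) : ∀ i, cons a e i ≤ M
  | 0 => ha
  | i + 1 => he i

lemma LS.lett {H G : Fn σ} (hH : LS H) (hG : LS G) : LS fun x e => G x (cons (H x e) e) := by
  obtain ⟨c, hb, h⟩ := hH
  obtain ⟨d, hb', h'⟩ := hG
  have k1 : ∀ x M e, 2 ≤ M → (∀ i, e i ≤ M) → ∀ i, cons (H x e) e i ≤ M ^ (c + 1) :=
    fun x M e hM he => cons_le ((hb x M e hM he).trans (pow_mono hM (by omega)))
      fun i => (he i).trans (le_pow hM)
  have k2 : ∀ M, 2 ≤ M → (M ^ (c + 1)) ^ d ≤ M ^ ((c + 1) * (d + 1)) := fun M hM => by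
    rw [← pow_mul]; exact pow_mono hM (by nlinarith)
  refine ⟨(c + 1) * (d + 1), fun x M e hM he =>
    (hb' x _ _ (hM.trans (le_pow hM)) (k1 x M e hM he)).trans (k2 M hM), fun ρ β hρ => ?_⟩
  obtain ⟨p, hp⟩ := h ρ β hρ
  obtain ⟨q, hq⟩ := h' (cons β ρ) (β + 1) (fun i => by cases i <;> simp [cons, (hρ _).le])
  refine ⟨.seq p (.seq q (.seq (clr β) (mov (β + 1) β))), fun x M g B hM h1 h2 h3 => ?_⟩
  have e : (fun i => update g β (H x fun i => g (ρ i)) (cons β ρ i)) =
      cons (H x fun i => g (ρ i)) fun i => g (ρ i) := by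
    funext i; cases i <;> simp [cons, (hρ _).ne]
  have := pow_mono hM (show c ≤ (c + 1) * (d + 1) by nlinarith)
  have := k2 M hM
  have := hb' x _ _ (hM.trans (le_pow hM)) (k1 x M _ hM h1)
  have a2 := hq x (M ^ (c + 1)) (update g β (H x fun i => g (ρ i))) B (hM.trans (le_pow hM))
    (fun i => by rw [congrFun e i]; exact k1 x M _ hM h1 i)
    (fun r hr => by rw [update_of_ne (by omega)]; exact h2 r (by omega)) (by omega)
  rw [e] at a2
  refine (does_seq (hp x M g B hM h1 h2 (by omega)) (does_seq a2 (does_seq does_clr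
    (does_mov (by omega) (by simp; omega))))).cg rfl ?_
  have := h2 (β + 1) (by omega)
  funext j; simp only [update_apply]; split_ifs <;> simp_all

def rc (N a : ℕ) (f : ℕ → ℕ → ℕ) : ℕ := Nat.rec a f N

@[simp] lemma rc_zero (a f) : rc 0 a f = a := rfl
@[simp] lemma rc_succ (N a f) : rc (N + 1) a f = f N (rc N a f) := rfl

lemma LS.prec {N I S : Fn σ} (hN : LS N) (hI : LS I) (hS : LS S) (c : ℕ)
    (hc : ∀ x M e, 2 ≤ M → (∀ i, e i ≤ M) → ∀ n ≤ N x e,
      rc n (I x e) (fun i s => S x (cons s (cons i e))) ≤ M ^ c) :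
    LS fun x e => rc (N x e) (I x e) fun i s => S x (cons s (cons i e)) := by
  obtain ⟨c1, b1, h1⟩ := hN
  obtain ⟨c2, b2, h2⟩ := hI
  obtain ⟨c3, b3, h3⟩ := hS
  refine ⟨(c + c1 + c2 + 1) * (c3 + 1), fun x M e hM he =>
    (hc x M e hM he _ le_rfl).trans (pow_mono hM (by nlinarith)), fun ρ β hρ => ?_⟩
  obtain ⟨pI, hpI⟩ := h2 ρ β hρ
  obtain ⟨pN, hpN⟩ := h1 ρ (β + 2) fun i => (hρ i).trans (by omega)
  obtain ⟨pS, hpS⟩ := h3 (cons β (cons (β + 1) ρ)) (β + 3) (fun i => by
    rcases i with _ | _ | i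
    · simp [cons]
    · simp [cons]
    · have := hρ i; simp [cons]; omega)
  refine ⟨.seq pI (.seq pN (.seq (whl (β + 2) (.seq (flp (β + 2) false) (.seq pS (.seq (clr β)
    (.seq (mov (β + 3) β) (flp (β + 1) true)))))) (clr (β + 1)))), fun x M g B hM k1 k2 k3 => ?_⟩
  set e : ℕ → ℕ := fun i => g (ρ i) with he
  set R : ℕ → ℕ := fun n => rc n (I x e) fun i s => S x (cons s (cons i e)) with hR
  have m1 := pow_mono hM (show c1 ≤ c + c1 + c2 + 1 by omega)
  have m2 := pow_mono hM (show c2 ≤ c + c1 + c2 + 1 by omega)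
  have m3 := pow_mono hM (show c ≤ c + c1 + c2 + 1 by omega)
  have m4 := pow_mono hM (show c + c1 + c2 + 1 ≤ (c + c1 + c2 + 1) * (c3 + 1) by nlinarith)
  have m5 : (M ^ (c + c1 + c2 + 1)) ^ c3 ≤ M ^ ((c + c1 + c2 + 1) * (c3 + 1)) := by
    rw [← pow_mul]; exact pow_mono hM (by nlinarith)
  have m6 := le_pow (a := c + c1 + c2) hM
  have m7 := b1 x M e hM k1
  have a1 := hpI x M g B hM k1 k2 (by omega)
  have e1 : (fun i => update g β (I x e) (ρ i)) = e := by
    funext i; simp [he, (hρ _).ne]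
  have a2 := hpN x M (update g β (I x e)) B hM (fun i => by rw [congrFun e1 i]; exact k1 i)
    (fun r hr => by rw [update_of_ne (by omega)]; exact k2 r (by omega)) (by omega)
  rw [e1] at a2
  have a3 := does_whl (x := x) (B := B) (r := β + 2) (b := .seq (flp (β + 2) false) (.seq pS
    (.seq (clr β) (.seq (mov (β + 3) β) (flp (β + 1) true))))) (N x e)
    (fun m => update (update (update g β (R m)) (β + 1) m) (β + 2) (N x e - m)) (fun _ => 0)
    (fun m hm => ⟨by simp; omega, by
      have e2 : (fun i => update (update (update g β (R m)) (β + 1) m) (β + 2) (N x e - m - 1)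
          (cons β (cons (β + 1) ρ) i)) = cons (R m) (cons m e) := by
        funext i
        rcases i with _ | _ | i
        · simp [cons]
        · simp [cons]
        · have := hρ i
          simp only [cons, he]
          rw [update_of_ne (by omega), update_of_ne (by omega), update_of_ne (by omega)]
      have m8 := hc x M e hM k1 m hm.le
      have m9 := hc x M e hM k1 (m + 1) hm
      have a4 := hpS x (M ^ (c + c1 + c2 + 1)) (update (update (update g β (R m)) (β + 1) m)
        (β + 2) (N x e - m - 1)) B (by omega)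
        (fun i => by
          rw [congrFun e2 i]
          exact cons_le (m8.trans m3) (cons_le (by omega) fun i => (k1 i).trans m6) i)
        (fun r hr => by
          rw [update_of_ne (by omega), update_of_ne (by omega), update_of_ne (by omega)]
          exact k2 r (by omega)) (by omega)
      rw [e2] at a4
      rw [rc_succ] at m9
      refine (does_seq (does_dec (by simp; omega)) (does_seq (a4.cg (by simp) rfl)
        (does_seq does_clr (does_seq (does_mov (by omega) (by simp; simp only [hR]; omega))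
        (does_inc (by simp; omega)))))).cg rfl ?_
      have := k2 (β + 3) (by omega)
      funext j; simp only [update_apply, hR, rc_succ]; split_ifs <;> first | omega | simp_all⟩)
    (by simp)
  refine (does_seq a1 (does_seq a2 (does_seq (a3.cg ?_ rfl) does_clr))).cg rfl ?_
  · have := k2 (β + 1) (by omega)
    funext j; simp only [update_apply, hR, rc_zero]; split_ifs <;> first | omega | simp_all
  · have := k2 (β + 1) (by omega)
    have := k2 (β + 2) (by omega)
    funext j; simp only [update_apply, hR]; split_ifs <;> first | omega | simp_all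

lemma inAt_min (x : List σ) (m : ℕ) : inAt x (min m (x.length + 1)) = inAt x m := by
  rcases le_total m (x.length + 1) with h | h
  · rw [min_eq_left h]
  · rw [min_eq_right h]
    obtain ⟨m, rfl⟩ : ∃ k, m = k + 1 := ⟨m - 1, by omega⟩
    simp [inAt, List.getElem?_eq_none (show x.length ≤ m by omega)]

lemma LS.inp {A : Fn σ} (hA : LS A) (c : InSym σ → Bool) :
    LS fun x e => if c (inAt x (A x e)) then 1 else 0 := by
  obtain ⟨d, hb, h⟩ := hA
  refine ⟨d + 1, fun x M e hM he => ?_, fun ρ β hρ => ?_⟩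
  · have := le_pow (a := d) hM
    simp only []
    split_ifs <;> omega
  obtain ⟨p, hp⟩ := h ρ β hρ
  refine ⟨.seq p (.seq (whl β (.seq (flp β false) (inMv .R)))
    (.seq (.ite 0 (fun y _ => c y) (flp β true) (inMv .S)) inHome)), fun x M g B hM h1 h2 h3 => ?_⟩
  have m1 := pow_mono hM (show d ≤ d + 1 by omega)
  have m2 := le_pow (a := d) hM
  set a := A x fun i => g (ρ i)
  have a3 := does_whl (x := x) (B := B) (r := β) (b := .seq (flp β false) (inMv .R)) a
    (fun m => update g β (a - m)) (fun m => min m (x.length + 1))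
    (fun m hm => ⟨by simp; omega, by
      have := does_seq (does_dec (x := x) (B := B) (r := β) (g := update g β (a - m))
        (i := min m (x.length + 1)) (by simp; omega)) (does_inMv (d := .R))
      rw [show inMove x.length (min m (x.length + 1)) .R = min (m + 1) (x.length + 1) by
        simp only [inMove]; omega] at this
      exact this.cg rfl (by simp; rfl)⟩) (by simp)
  simp only [Nat.sub_zero, Nat.sub_self, Nat.zero_min] at a3
  refine does_seq (hp x M g B hM h1 h2 (by omega)) (does_seq a3 (does_seq (does_iteIn ?_)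
    (does_inHome (min a (x.length + 1)))))
  rw [inAt_min]
  by_cases hc : c (inAt x a) = true
  · rw [if_pos hc]
    exact (does_inc (by rw [update_self]; omega)).cg rfl (by simp only [a] at hc; simp [hc])
  · rw [if_neg hc]
    exact (does_inMv (d := .S)).cg rfl (by simp only [a] at hc; simp [hc])

theorem LS.space (C O : List σ → ℕ → ℕ) (hC : LS fun x e => C x (e 0)) (hO : LS fun x e => O x (e 0)) :
    ∃ (M : MultiTape σ) (c : ℕ), ∀ x W, C x (W + 1) = 0 → ∃ W', C x W' = 0 ∧
      (∃ m, M.halt ((M.step x)^[m] M.init).q = some (decide (O x W' ≠ 0))) ∧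
      ∃ V : Finset (Fin M.k × ℤ), (∀ (m : ℕ) j, (j, ((M.step x)^[m] M.init).head j) ∈ V) ∧
        V.card ≤ c * (Nat.log 2 (W + 2) + 1) := by
  classical
  obtain ⟨c1, b1, h1⟩ := hC
  obtain ⟨c2, b2, h2⟩ := hO
  obtain ⟨p, hp⟩ := h1 (fun _ => 0) 1 (by simp)
  obtain ⟨q, hq⟩ := h2 (fun _ => 0) 1 (by simp)
  let P : TP σ := .seq (.seq (flp 1 true) (.seq (whl 1 (.seq (clr 1) (.seq (flp 0 true) p))) q)) (scn 1)
  refine ⟨P.machine 1, P.nt 1 * (c1 + c2 + 4), fun x W hW => ?_⟩
  have ex : ∃ n, C x (n + 1) = 0 := ⟨W, hW⟩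
  have n1 := Nat.find_spec ex
  have n2 := Nat.find_min' ex hW
  set n := Nat.find ex
  set B := (c1 + c2 + 1) * (Nat.log 2 (W + 2) + 1) + 2 with hB
  have m0 : (W + 2) ^ (c1 + c2 + 1) < 2 ^ (B - 1) := by
    calc (W + 2) ^ (c1 + c2 + 1) ≤ (2 ^ (Nat.log 2 (W + 2) + 1)) ^ (c1 + c2 + 1) :=
          Nat.pow_le_pow_left (Nat.lt_pow_succ_log_self (by norm_num) _).le _
      _ < 2 ^ (B - 1) := by
          rw [← pow_mul]; exact Nat.pow_lt_pow_right (by norm_num) (by rw [hB, mul_comm]; omega)
  have hM : 2 ≤ W + 2 := by omega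
  have m1 := pow_mono hM (show c1 ≤ c1 + c2 + 1 by omega)
  have m2 := pow_mono hM (show c2 ≤ c1 + c2 + 1 by omega)
  have m3 := le_pow (a := c1 + c2) hM
  have a3 := does_whl (x := x) (B := B) (r := 1) (b := .seq (clr 1) (.seq (flp 0 true) p)) (n + 1)
    (fun m => update (update (fun _ => 0) 0 m) 1 (if m = 0 then 1 else C x m)) (fun _ => 0)
    (fun m hm => ⟨by
      rcases m with _ | m
      · simp
      · simpa using Nat.find_min ex (show m < n by omega), by
      refine (does_seq does_clr (does_seq (does_inc (by simp; omega)) (hp x (W + 2) _ B hM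
        (fun _ => by simp; omega) (fun r hr => by
          simp only [update_apply]; split_ifs <;> omega) (by omega)))).cg rfl ?_
      funext j; simp only [update_apply]; split_ifs <;> first | omega | simp_all⟩) (by simpa using n1)
  have a4 := hq x (W + 2) (update (update (fun _ => 0) 0 (n + 1)) 1
    (if n + 1 = 0 then 1 else C x (n + 1))) B hM (fun _ => by simp; omega) (fun r hr => by
      simp only [update_apply]; split_ifs <;> omega) (by omega)
  have a5 := does_seq (does_inc (x := x) (B := B) (r := 1) (g := fun _ => 0) (i := 0)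
    (by omega)) (does_seq (a3.cg (by simp) rfl) a4)
  obtain ⟨s1, r1, r2⟩ := a5 _ (rep_init (by omega))
  obtain ⟨s2, r3, r4, r5, -⟩ := scn_spec (x := x) (r := 1) r2
  obtain ⟨⟨m, hm⟩, V, v1, v2⟩ := machine_spec P 1 (run_seq r1 r3) r4
  refine ⟨n + 1, n1, ⟨m, ?_⟩, V, v1, ?_⟩
  · rw [hm]; congr 1; exact decide_eq_decide.2 (by simpa using r5)
  · rw [v2, mul_assoc]; exact Nat.mul_le_mul_left _ (by rw [hB]; nlinarith)

end Vale.Agent.P312
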