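import Vale.Agent.P312.Sem

/-! The computation graph satisfies the conditions of the evaluation procedure. -/

namespace Vale.Agent.P312

open Finset

attribute [local irreducible] pa pL pw pp pb pt pG pA pC pX pR pM pP pS pY

def Nd (θ u : ℕ) : Prop :=
  u = 0 ∨ (u % 2 = 1 ∧ u / 2 < pA θ) ∨
    ∃ j < pG θ, ∃ s, (s + 1) * pa θ ≤ pA θ ∧ u = 2 * (j * pA θ + s) + 2

def alpha (θ u : ℕ) : ℕ := if u = 0 then 0 else if u % 2 = 1 then u / 2 + 1 else (lvl θ u + 1) * pa θ + 1

def beta (θ u : ℕ) : ℕ := if u = 0 then 0 else lvl θ u + 1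

namespace OneTape

variable {σ : Type} (M : OneTape σ) (x : List σ) (θ : ℕ)

noncomputable def chunk (c : ℕ) : ℕ :=
  bld (pG θ ^ (pa θ + 1)) (pG θ) (pa θ + 1) fun e => M.encG θ (M.cf θ x (c * pa θ + e))

noncomputable def cont (u : ℕ) : ℕ :=
  if u % 2 = 1 then M.chunk x θ (u / 2)
  else M.encB θ ((u / 2 - 1) / pA θ) (M.cf θ x ((lvl θ u + 1) * pa θ * pa θ))

def bit (u k : ℕ) : Prop :=
  u ≠ 0 ∧ nlo θ u ≤ k ∧ k < nlo θ u + nsz θ u ∧ (M.cont x θ u).testBit (k - nlo θ u) = true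

def Zok (u g r z : ℕ) : Prop :=
  ∀ k < pM θ, (z.testBit k = true ↔
    (∃ c < nnc θ u, M.bit x θ (noc θ u c) k) ∨ M.bit x θ (M.nic θ u g r) k)

variable {M θ} (h : M.Fx θ)
include h

lemma Fx.chunk_spec {c} (hc : c < pA θ) : M.chunk x θ c < pG θ ^ (pa θ + 1) ∧
    ∀ e < pa θ + 1, dig (M.chunk x θ c) (pG θ) e = M.encG θ (M.cf θ x (c * pa θ + e)) :=
  bld_spec (fun e he => h.encG_lt x (by nlinarith)) le_rfl

lemma Fx.even {j s} (hs : (s + 1) * pa θ ≤ pA θ) : (2 * (j * pA θ + s) + 2) % 2 = 0 ∧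
    lvl θ (2 * (j * pA θ + s) + 2) = s ∧ ((2 * (j * pA θ + s) + 2) / 2 - 1) / pA θ = j := by
  have := h.ha
  have hs' : s < pA θ := by nlinarith
  have e : (2 * (j * pA θ + s) + 2) / 2 - 1 = j * pA θ + s := by omega
  refine ⟨by omega, ?_, by rw [e, SM.mul_add_div' hs']⟩
  rw [lvl, if_neg (by omega), e, Nat.mul_add_mod_of_lt hs']

lemma Fx.odd {u} (hu : u % 2 = 1) : lvl θ u * pa θ ≤ u / 2 - 1 ∧ u / 2 ≤ lvl θ u * pa θ + pa θ := by
  rw [lvl, if_pos hu]
  have := Nat.div_mul_le_self (u / 2 - 1) (pa θ)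
  have := Nat.lt_div_mul_add (a := u / 2 - 1) h.ha
  omega

lemma Fx.nc {u} (hu : Nd θ u) (u0 : u ≠ 0) : nnc θ u ≤ pa θ ∧ lvl θ u * pa θ + nnc θ u ≤ pA θ := by
  rcases hu with hu | ⟨h1, h2⟩ | ⟨j, -, s, h2, rfl⟩
  · exact absurd hu u0
  · have := h.odd h1
    rw [nnc, if_pos h1]; omega
  · obtain ⟨a1, a2, -⟩ := h.even (j := j) h2
    rw [nnc, if_neg (by omega), a2]
    rw [add_mul] at h2; omega

omit h in
lemma noc_spec (u c) : noc θ u c % 2 = 1 ∧ noc θ u c / 2 = lvl θ u * pa θ + c := by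
  unfold noc; omega

omit h in
lemma odd_reg {u} (hu : u % 2 = 1) : nlo θ u = u / 2 % (pa θ + 1) * pC θ ∧ nsz θ u = pC θ ∧
    nlo θ u + nsz θ u ≤ pR θ := by
  simp only [nlo, nsz, if_pos hu, true_and, pR]
  have := Nat.mod_lt (u / 2) (show 0 < pa θ + 1 by omega)
  nlinarith

omit h in
lemma even_reg {u} (hu : ¬u % 2 = 1) : nlo θ u = pR θ + lvl θ u % 2 * pX θ ∧ nsz θ u = pX θ ∧
    nlo θ u + nsz θ u ≤ pM θ := by
  simp only [nlo, nsz, if_neg hu, true_and, pM]
  have := Nat.mod_lt (lvl θ u) (show 0 < 2 by omega)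
  nlinarith

lemma Fx.nblk_lt {u} (hu : Nd θ u) (u0 : u ≠ 0) (g r) : M.nblk θ u g r < pG θ := by
  rcases hu with hu | ⟨h1, h2⟩ | ⟨j, hj, s, h2, rfl⟩
  · exact absurd hu u0
  · rw [nblk, if_pos h1]
    exact ((Nat.div_le_self _ _).trans (Nat.div_le_self _ _)).trans_lt (dig_lt h.hG0)
  · obtain ⟨a1, -, a2⟩ := h.even (j := j) h2
    rwa [nblk, if_neg (by omega), a2]

lemma Fx.nic_spec {u} (hu : Nd θ u) (u0 : u ≠ 0) (g r) (hl : lvl θ u ≠ 0) :
    Nd θ (M.nic θ u g r) ∧ M.nic θ u g r % 2 = 0 ∧ M.nic θ u g r ≠ 0 ∧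
      lvl θ (M.nic θ u g r) = lvl θ u - 1 ∧ (M.nic θ u g r / 2 - 1) / pA θ = M.nblk θ u g r := by
  have a1 : (lvl θ u - 1 + 1) * pa θ ≤ pA θ := by
    rw [Nat.sub_add_cancel (by omega)]
    have := (h.nc hu u0).2
    omega
  obtain ⟨b1, b2, b3⟩ := h.even (j := M.nblk θ u g r) a1
  rw [nic, if_neg hl]
  exact ⟨Or.inr (Or.inr ⟨_, h.nblk_lt hu u0 g r, _, a1, rfl⟩), b1, by omega, b2, b3⟩

lemma Fx.ic_bit {u} (hu : Nd θ u) (u0 : u ≠ 0) (g r k) (hb : M.bit x θ (M.nic θ u g r) k) :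
    pR θ ≤ k ∧ ¬(nlo θ u ≤ k ∧ k < nlo θ u + nsz θ u) := by
  have hl : lvl θ u ≠ 0 := fun hl => hb.1 (by rw [nic, if_pos hl])
  obtain ⟨-, a1, -, a2, -⟩ := h.nic_spec hu u0 g r hl
  obtain ⟨b1, b2, -⟩ := even_reg (θ := θ) (u := M.nic θ u g r) (by omega)
  obtain ⟨-, c1, c2, -⟩ := hb
  rw [b2, b1, a2] at *
  refine ⟨by omega, ?_⟩
  by_cases h1 : u % 2 = 1
  · have := (odd_reg (θ := θ) h1).2.2
    omega
  · obtain ⟨d1, d2, -⟩ := even_reg (θ := θ) h1
    rw [d1, d2]
    rintro ⟨e1, e2⟩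
    have := reg_eq (s := (lvl θ u - 1) % 2) (t := lvl θ u % 2) (C := pX θ) (k := k - pR θ)
      (by omega) (by omega) (by omega) (by omega)
    omega

omit h in
lemma slot_eq {c c' k} (h1 : c ≤ c' + pa θ) (h2 : c' ≤ c + pa θ)
    (a1 : c % (pa θ + 1) * pC θ ≤ k) (a2 : k < c % (pa θ + 1) * pC θ + pC θ)
    (b1 : c' % (pa θ + 1) * pC θ ≤ k) (b2 : k < c' % (pa θ + 1) * pC θ + pC θ) : c = c' := by
  have := reg_eq a1 a2 b1 b2
  rcases lt_trichotomy c c' with h | h | h
  · exact absurd this (slot_ne h h2)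
  · exact h
  · exact absurd this.symm (slot_ne h h1)

omit h in
lemma oc_reg (u c) : nlo θ (noc θ u c) = (lvl θ u * pa θ + c) % (pa θ + 1) * pC θ ∧
    nsz θ (noc θ u c) = pC θ ∧ nlo θ (noc θ u c) + nsz θ (noc θ u c) ≤ pR θ ∧
    M.cont x θ (noc θ u c) = M.chunk x θ (lvl θ u * pa θ + c) := by
  obtain ⟨a1, a2⟩ := noc_spec (θ := θ) u c
  obtain ⟨b1, b2, b3⟩ := odd_reg (θ := θ) a1
  exact ⟨by rw [b1, a2], b2, b3, by rw [cont, if_pos a1, a2]⟩

lemma Fx.z_chunk {u g r z} (hu : Nd θ u) (u0 : u ≠ 0) (hz : M.Zok x θ u g r z) {c} (hc : c < nnc θ u)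
    {e} (he : e < pa θ + 1) : dig z (pG θ) ((lvl θ u * pa θ + c) % (pa θ + 1) * (pa θ + 1) + e) =
      M.encG θ (M.cf θ x ((lvl θ u * pa θ + c) * pa θ + e)) := by
  obtain ⟨n1, n2⟩ := h.nc hu u0
  obtain ⟨a1, a2⟩ := h.chunk_spec x (c := lvl θ u * pa θ + c) (by omega)
  obtain ⟨b1, b2, b3, b4⟩ := oc_reg (M := M) x (θ := θ) u c
  rw [← a2 e he, h.hG, ← dig_rd he, mul_assoc, ← pC]
  congr 1
  refine rd_of_bits (by rwa [pC, mul_comm (pa θ + 1), pow_mul, ← h.hG]) fun k k1 k2 => ?_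
  have k3 : k < pR θ := by omega
  rw [hz k (by unfold pM; omega)]
  constructor
  · rintro (⟨c', hc', -, d1, d2, d3⟩ | hb)
    · obtain ⟨f1, f2, -, f4⟩ := oc_reg (M := M) x (θ := θ) u c'
      rw [f2, f1] at d2
      rw [f1] at d1 d3
      have := slot_eq (by omega) (by omega) k1 k2 d1 d2
      rwa [f4, ← this] at d3
    · have := (h.ic_bit x hu u0 g r k hb).1
      omega
  · intro hb
    exact Or.inl ⟨c, hc, by unfold noc; omega, by omega, by omega, by rwa [b4, b1]⟩

lemma Fx.z_base {u g r z} (hu : Nd θ u) (u0 : u ≠ 0) (hz : M.Zok x θ u g r z) :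
    M.baseC x θ u (M.nblk θ u g r) z =
      M.encB θ (M.nblk θ u g r) (M.cf θ x (lvl θ u * pa θ * pa θ)) := by
  rw [baseC]
  split_ifs with hl
  · rw [h.initB_spec, hl]; simp
  obtain ⟨-, a1, a0, a2, a3⟩ := h.nic_spec hu u0 g r hl
  obtain ⟨b1, b2, b3⟩ := even_reg (θ := θ) (u := M.nic θ u g r) (by omega)
  have b4 : M.cont x θ (M.nic θ u g r) =
      M.encB θ (M.nblk θ u g r) (M.cf θ x (lvl θ u * pa θ * pa θ)) := by
    rw [cont, if_neg (by omega), a2, a3, Nat.sub_add_cancel (by omega)]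
  rw [a2] at b1
  refine rd_of_bits (by rw [pX, mul_comm (pb θ), pow_mul, ← h.hG]; exact (h.encB_spec _ _).1)
    fun k k1 k2 => ?_
  rw [hz k (by omega)]
  constructor
  · rintro (⟨c', hc', -, d1, d2, d3⟩ | ⟨-, -, -, hb⟩)
    · have := (oc_reg (M := M) x (θ := θ) u c').2.2.1
      omega
    · rwa [b4, b1] at hb
  · intro hb
    exact Or.inr ⟨a0, by omega, by omega, by rwa [b4, b1]⟩

lemma Fx.block_spec {u g r z} (hu : Nd θ u) (u0 : u ≠ 0) (hz : M.Zok x θ u g r z) (hr : r < nnf θ u)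
    (hg : u % 2 = 1 → ∀ e < r, dig g (pG θ) e = M.encG θ (M.cf θ x (u / 2 * pa θ + e))) :
    M.blockAt x θ u g r z = M.encB θ (M.nblk θ u g r) (M.cf θ x (upto θ u r)) := by
  have ha := h.ha
  obtain ⟨n1, n2⟩ := h.nc hu u0
  have e1 : upto θ u r = (lvl θ u * pa θ + nnc θ u) * pa θ + (if u % 2 = 1 then r else 0) ∧
      upto θ u r ≤ pA θ * pa θ := by
    unfold upto nnc nnf at *
    split_ifs at * with h1
    · have := h.odd h1
      have h2 : u / 2 < pA θ := by
        rcases hu with hu | ⟨-, h2⟩ | ⟨j, -, s, -, rfl⟩ <;> omega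
      rw [show lvl θ u * pa θ + (u / 2 - lvl θ u * pa θ) = u / 2 by omega]
      exact ⟨rfl, by nlinarith⟩
    · exact ⟨by ring, by nlinarith⟩
  have e2 : lvl θ u * pa θ * pa θ ≤ upto θ u r := by rw [e1.1, add_mul]; omega
  rw [blockAt]
  refine (lp_ind (fun i => M.encB θ (M.nblk θ u g r) (M.cf θ x (lvl θ u * pa θ * pa θ + i))) _
    (h.z_base x hu u0 hz).symm fun i hi => ⟨?_, (h.encB_spec _ _).1.le.trans h.hGb'⟩).trans
    (by rw [Nat.add_sub_cancel' e2])
  set v := lvl θ u * pa θ * pa θ + i with hv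
  have v1 := Nat.div_add_mod' v (pa θ)
  have v2 := Nat.mod_lt v ha
  have v3 : lvl θ u * pa θ ≤ v / pa θ := (Nat.le_div_iff_mul_le ha).2 (by omega)
  have : nrec θ u g z v = M.encG θ (M.cf θ x v) := by
    rw [nrec]
    split_ifs with h1
    · rw [hg h1.1 _ (by have := upto.eq_1 θ u r; rw [if_pos h1.1, ← h1.2] at this; omega), ← h1.2, v1]
    · have v4 : v / pa θ < lvl θ u * pa θ + nnc θ u := by
        by_cases h2 : u % 2 = 1
        · have := h.odd h2
          have v5 : v / pa θ < u / 2 + 1 := (Nat.div_lt_iff_lt_mul ha).2 (by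
            have := upto.eq_1 θ u r
            rw [nnf, if_pos h2] at hr
            rw [if_pos h2] at this; rw [add_mul]; omega)
          rw [nnc, if_pos h2]; omega
        · rw [if_neg h2] at e1
          exact (Nat.div_lt_iff_lt_mul ha).2 (by omega)
      have := h.z_chunk x hu u0 hz (c := v / pa θ - lvl θ u * pa θ) (by omega) (e := v % pa θ) (by omega)
      rwa [Nat.add_sub_cancel' v3, v1] at this
  rw [this, h.rstep_spec x _ (by omega), hv, add_assoc]

lemma Fx.chi_odd {u g r z} (hu : u % 2 = 1) (hA : u / 2 < pA θ) (hz : M.Zok x θ u g r z)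
    (hr : r < pa θ) (hg : ∀ e, 0 < e → e ≤ r → dig g (pG θ) 0 = M.encG θ (M.cf θ x (u / 2 * pa θ)) →
      dig g (pG θ) e = M.encG θ (M.cf θ x (u / 2 * pa θ + e)))
    (h0 : r ≠ 0 → dig g (pG θ) 0 = M.encG θ (M.cf θ x (u / 2 * pa θ))) :
    M.nchi x θ u g r z = if dig g (pG θ) 0 = M.encG θ (M.cf θ x (u / 2 * pa θ)) ∧
      dig g (pG θ) (r + 1) = M.encG θ (M.cf θ x (u / 2 * pa θ + (r + 1))) then 1 else 0 := by
  have hN : Nd θ u := Or.inr (Or.inl ⟨hu, hA⟩)
  have u0 : u ≠ 0 := by omega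
  have k0 : (if u / 2 = 0 then pL θ * M.nq + M.cq M.q0 else
      dig z (pG θ) ((u / 2 - 1) % (pa θ + 1) * (pa θ + 1) + pa θ)) =
      M.encG θ (M.cf θ x (u / 2 * pa θ)) := by
    split_ifs with h1
    · rw [h1, zero_mul, encG_init]
    · have := h.odd hu
      have := h.z_chunk x hN u0 hz (c := u / 2 - 1 - lvl θ u * pa θ) (by rw [nnc, if_pos hu]; omega)
        (e := pa θ) (by omega)
      rwa [Nat.add_sub_cancel' (by omega), ← Nat.succ_mul, Nat.succ_eq_add_one,
        Nat.sub_add_cancel (by omega)] at this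
  rw [nchi, if_pos hu, k0]
  by_cases g0 : dig g (pG θ) 0 = M.encG θ (M.cf θ x (u / 2 * pa θ))
  · have g1 : ∀ e ≤ r, dig g (pG θ) e = M.encG θ (M.cf θ x (u / 2 * pa θ + e)) := fun e he => by
      rcases Nat.eq_zero_or_pos e with rfl | h1
      · exact g0
      · exact hg e h1 he g0
    have v1 : u / 2 * pa θ + r < pA θ * pa θ := by nlinarith
    rw [h.block_spec x hN u0 hz (by rwa [nnf, if_pos hu]) fun _ e he => g1 e he.le, upto, if_pos hu,
      nblk, if_pos hu, g1 r le_rfl, encG_div, ← blk, h.visit_spec x v1,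
      Nat.mul_add_mod_of_lt (h.encG_lt x (v := _ + 1) v1), add_assoc]
    simp [g0, eq_comm]
  · rw [if_neg (by tauto), if_neg (by tauto)]

lemma Fx.prod_odd {u g} {Zs : ℕ → ℕ} (hu : u % 2 = 1) (hA : u / 2 < pA θ)
    (hz : ∀ r, M.Zok x θ u g r (Zs r)) (hg : g < pG θ ^ (pa θ + 1)) :
    ∏ r ∈ range (pa θ), M.nchi x θ u g r (Zs r) = if g = M.chunk x θ (u / 2) then 1 else 0 := by
  obtain ⟨a1, a2⟩ := h.chunk_spec x hA
  split_ifs with h1
  · subst h1
    refine prod_eq_one fun r hr => ?_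
    have hr := mem_range.1 hr
    rw [h.chi_odd x hu hA (hz r) hr (fun e _ he _ => a2 e (by omega)) fun _ => a2 0 (by omega),
      if_pos ⟨a2 0 (by omega), a2 _ (by omega)⟩]
  · by_contra hc
    have hc : ∀ r < pa θ, M.nchi x θ u g r (Zs r) ≠ 0 := fun r hr =>
      prod_ne_zero_iff.1 hc r (mem_range.2 hr)
    have key : ∀ r < pa θ, ∀ e ≤ r + 1, dig g (pG θ) e = M.encG θ (M.cf θ x (u / 2 * pa θ + e)) := by
      intro r
      induction r with
      | zero =>
        intro hr e he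
        have := hc 0 hr
        rw [h.chi_odd x hu hA (hz 0) hr (fun e _ _ => by omega) (by simp)] at this
        have := of_not_not fun hn => this (if_neg hn)
        interval_cases e
        · exact this.1
        · exact this.2
      | succ r ih =>
        intro hr e he
        have ih := ih (by omega)
        have := hc _ hr
        rw [h.chi_odd x hu hA (hz _) hr (fun e _ he _ => ih e he) fun _ => ih 0 (by omega)] at this
        have := of_not_not fun hn => this (if_neg hn)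
        rcases Nat.lt_or_ge e (r + 1 + 1) with h2 | h2
        · exact ih e (by omega)
        · rw [show e = r + 1 + 1 by omega]; exact this.2
    have := h.ha
    exact h1 (eq_of_dig hg a1 fun e he => by rw [a2 e he, key (pa θ - 1) (by omega) e (by omega)])

lemma Fx.spec : (M.cm x θ).Spec (Nd θ) (M.bit x θ) (alpha θ) (beta θ) := by
  have ha := h.ha
  have hcp : cp θ (pG θ) (pa θ + 1) = pG θ ^ (pa θ + 1) := min_eq_left h.hGa
  constructor
  · exact fun k hk => hk.1 rfl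
  · intro u _ u0
    have := h.hM
    simp only [cm, nnf, beta, if_neg u0]
    split_ifs
    · omega
    · exact ⟨by omega, by nlinarith, by omega⟩
  · intro u hu u0 c hc
    simp only [cm, CM.T] at hc ⊢
    obtain ⟨n1, n2⟩ := h.nc hu u0
    obtain ⟨a1, a2⟩ := noc_spec (θ := θ) u c
    obtain ⟨b1, b2, b3, -⟩ := oc_reg (M := M) x (θ := θ) u c
    refine ⟨Or.inr (Or.inl ⟨a1, by omega⟩), ?_, ?_, ?_, ?_⟩
    · rw [alpha, alpha, if_neg (by omega), if_pos a1, if_neg u0, a2]
      unfold nnc at hc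
      split_ifs at * with h1
      · omega
      · rw [add_mul]; omega
    · rw [beta, beta, if_neg (by omega), if_neg u0, lvl, if_pos a1, a2]
      have : (lvl θ u * pa θ + c - 1) / pa θ < lvl θ u + 1 :=
        (Nat.div_lt_iff_lt_mul ha).2 (by rw [add_mul]; omega)
      omega
    · rintro k ⟨-, d1, d2, -⟩
      refine ⟨by omega, ?_⟩
      rintro ⟨e1, e2⟩
      by_cases h1 : u % 2 = 1
      · obtain ⟨f1, f2, -⟩ := odd_reg (θ := θ) h1
        rw [f2, f1] at e2
        rw [f1] at e1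
        rw [b2, b1] at d2
        rw [b1] at d1
        have := h.odd h1
        rw [nnc, if_pos h1] at hc
        have := slot_eq (by omega) (by omega) d1 d2 e1 e2
        omega
      · have := (even_reg (θ := θ) h1).1
        omega
    · rintro c' hc' k ⟨-, d1, d2, -⟩ ⟨-, e1, e2, -⟩
      obtain ⟨f1, f2, -⟩ := oc_reg (M := M) x (θ := θ) u c'
      rw [f2, f1] at e2
      rw [f1] at e1
      rw [b2, b1] at d2
      rw [b1] at d1
      have := slot_eq (by omega) (by omega) d1 d2 e1 e2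
      omega
  · intro u hu u0 g _ r _
    simp only [cm, CM.T]
    have k := h.ic_bit x hu u0 g r
    by_cases hl : lvl θ u = 0
    · have e : M.nic θ u g r = 0 := by rw [nic, if_pos hl]
      refine ⟨Or.inl e, ?_, ?_, k⟩
      · rw [e, alpha, alpha, if_pos rfl, if_neg u0]; split_ifs <;> omega
      · rw [e, beta, beta, if_pos rfl, if_neg u0]; omega
    · obtain ⟨a1, a2, a3, a4, -⟩ := h.nic_spec hu u0 g r hl
      refine ⟨a1, ?_, ?_, k⟩
      · rw [alpha, alpha, if_neg a3, if_neg (by omega), if_neg u0, a4, Nat.sub_add_cancel (by omega)]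
        split_ifs with h1
        · have := h.odd h1
          have := Nat.mul_pos (Nat.pos_of_ne_zero hl) ha
          omega
        · rw [add_mul]; omega
      · rw [beta, beta, if_neg a3, if_neg u0, a4]; omega
  · intro u _ _ g hg k hT
    simp only [cm, CM.T, nout, nng, nsz] at hg hT ⊢
    split_ifs at * with h1 h2 h3
    · tauto
    · rfl
    · omega
    · rfl
  · intro u hu u0 Zs hz k _
    simp only [cm]
    by_cases h1 : u % 2 = 1
    · have h2 : u / 2 < pA θ := by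
        rcases hu with hu | ⟨-, h2⟩ | ⟨j, -, s, -, rfl⟩ <;> omega
      rw [nng, nnf, if_pos h1, if_pos h1, hcp, sum_congr rfl fun g hg => by
        rw [h.prod_odd x h1 h2 (hz g) (mem_range.1 hg)]]
      simp only [ite_mul, one_mul, zero_mul, sum_ite_eq', mem_range, (h.chunk_spec x h2).1, if_true,
        nout, if_pos h1, bit, cont]
      constructor
      · exact fun hb => if_pos hb.2
      · exact fun hb => if_neg fun hc => hb ⟨u0, hc⟩
    · have e : ∀ g, M.nchi x θ u g 0 (Zs g 0) = if (M.cont x θ u).testBit g = true then 1 else 0 := by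
        intro g
        rw [nchi, if_neg h1, h.block_spec x hu u0 (hz g 0) (by rw [nnf, if_neg h1]; omega)
          fun h2 => absurd h2 h1, upto, if_neg h1, nblk, if_neg h1, cont, if_neg h1]
      simp only [nng, nnf, if_neg h1, range_one, prod_singleton, e, nout, bit, nsz]
      constructor
      · rintro ⟨-, b1, b2, b3⟩
        rw [sum_eq_single (k - nlo θ u), if_pos b3, if_pos (by omega)]
        · intro g _ hg
          rw [if_neg (c := k = _) (by omega), mul_zero]
        · intro hg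
          exact absurd (mem_range.2 (by omega)) hg
      · intro hb
        refine sum_eq_zero fun g hg => ?_
        have := mem_range.1 hg
        split_ifs with h2 h3
        · exact absurd ⟨u0, by omega, by omega, by rwa [h3, Nat.add_sub_cancel_left]⟩ hb
        all_goals rfl
  · intro u hu
    simp only [cm, pP]
    refine Nat.mul_le_mul_right _ (Nat.mul_le_mul_right _ ?_)
    have := h.hG0
    rcases hu with rfl | ⟨h1, h2⟩ | ⟨j, hj, s, h2, rfl⟩
    · omega
    · have : pA θ ≤ pG θ * pA θ := Nat.le_mul_of_pos_left _ this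
      omega
    · have : s < pA θ := by nlinarith
      have : (j + 1) * pA θ ≤ pG θ * pA θ := Nat.mul_le_mul_right _ hj
      rw [add_mul] at this; omega
  · intro u hu
    simp only [cm, pS]
    refine Nat.mul_le_mul_right _ (Nat.succ_le_succ (Nat.mul_le_mul_left _ ?_))
    by_cases u0 : u = 0
    · simp [u0, nnc]
    · have := (h.nc hu u0).1; omega
  · intro u _
    simp only [cm, pY, nng, nnf]
    refine Nat.mul_le_mul_right _ (Nat.succ_le_succ (Nat.mul_le_mul_right _ ?_))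
    split_ifs <;> omega

lemma Fx.ar : (M.cm x θ).Ar :=
  ⟨h.hp, min_eq_left h.h2M.le, min_eq_left h.hpM.le, by
    have := h.hM
    have := h.ha
    simp only [cm]; nlinarith⟩

theorem Fx.res_eq : M.res x θ =
    ((M.halt (M.cf θ x (pA θ * pa θ)).q).map fun r => if r then 2 else 1).getD 0 := by
  classical
  have ha := h.ha
  have hA : 0 < pA θ := by rw [pA]; exact Nat.mul_pos (by omega) ha
  set u := 2 * (pA θ - 1) + 1 with hu
  have u1 : u % 2 = 1 := by omega
  have u2 : u / 2 = pA θ - 1 := by omega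
  have hN : Nd θ u := Or.inr (Or.inl ⟨u1, by omega⟩)
  have hP : 0 < pP θ * pY θ := by
    have := h.hp.pos
    rw [pP, pY]
    exact Nat.mul_pos (Nat.mul_pos (Nat.mul_pos (by omega) this) (by omega))
      (Nat.mul_pos (by omega) (Nat.mul_pos this this))
  have fin := (h.spec x).final (h.ar x) (W := θ) hN (by
    refine le_trans ?_ h.hW.le
    simp only [cm, alpha, beta, if_neg (show u ≠ 0 by omega), if_pos u1, u2, Nat.sub_add_cancel hA]
    refine Nat.mul_le_mul (Nat.mul_le_mul_left _ (Nat.pow_le_pow_right (by rwa [mul_comm]) ?_))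
      (min_le_left _ _)
    rw [lvl, if_pos u1, u2]
    exact (Nat.div_lt_iff_lt_mul ha).2 (by rw [← pA]; omega))
  obtain ⟨a1, a2⟩ := h.chunk_spec x (c := pA θ - 1) (by omega)
  obtain ⟨b1, b2, b3⟩ := odd_reg (θ := θ) u1
  have hw : 2 ^ pw θ ≤ θ := by
    rw [← h.hG]; exact (Nat.le_self_pow (by omega) _).trans h.hGa
  have e : lastRec θ ((M.cm x θ).final θ u) = M.encG θ (M.cf θ x (pA θ * pa θ)) := by
    have c1 := a2 (pa θ) (by omega)
    rw [← Nat.succ_mul, Nat.succ_eq_add_one, Nat.sub_add_cancel hA] at c1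
    have c2 : ∀ k < pw θ, dig ((M.cm x θ).final θ u) (pp θ) (nlo θ u + (pa θ * pw θ + k)) =
        dig (M.encG θ (M.cf θ x (pA θ * pa θ))) 2 k := by
      intro k hk
      have c3 : pa θ * pw θ + k < pC θ := by rw [pC, add_mul]; omega
      have := fin (nlo θ u + (pa θ * pw θ + k)) (by simp only [cm, pM]; omega)
      simp only [cm] at this ⊢
      have c4 : M.bit x θ u (nlo θ u + (pa θ * pw θ + k)) ↔
          (M.encG θ (M.cf θ x (pA θ * pa θ))).testBit k = true := by
        rw [← c1, h.hG, dig, ← pow_mul, Nat.testBit_mod_two_pow, Nat.testBit_div_two_pow, bit,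
          Nat.add_sub_cancel_left, cont, if_pos u1, u2, mul_comm (pw θ), add_comm k]
        simp only [hk, decide_true, Bool.true_and]
        exact ⟨fun hb => hb.2.2.2, fun hb => ⟨by omega, by omega, by omega, hb⟩⟩
      rw [this, c4, Nat.testBit_eq_decide_div_mod_eq, dig, decide_eq_true_eq]
      split_ifs <;> omega
    obtain ⟨d1, d2⟩ := bld_spec (W := θ) (b := 2) (N := pw θ) (f := fun k =>
      dig ((M.cm x θ).final θ u) (pp θ) (nlo θ u + (pa θ * pw θ + k)))
      (fun k hk => by rw [c2 k hk]; exact dig_lt (by omega)) hw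
    exact eq_of_dig d1 (h.hG ▸ h.encG_lt x le_rfl) fun k hk => (d2 k hk).trans (c2 k hk)
  rw [res, e, encG_mod, tab, if_pos (cq_lt _), th, dq_cq]

end OneTape

end Vale.Agent.P312
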