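import Vale.Agent.P312.TP

/-! Binary registers on work tapes. -/

namespace Vale.Agent.P312

variable {σ : Type} {x : List σ} {B : ℕ}

def TS.set (s : TS) (r : ℕ) (t : ℤ → Sy) (h : ℤ) : TS :=
  ⟨Function.update s.tape r t, Function.update s.head r h, s.ip⟩

lemma TS.set_self (s : TS) (r : ℕ) : s.set r (s.tape r) (s.head r) = s := by
  cases s; simp [TS.set]

lemma TS.ok_set {s : TS} (hs : s.ok B) (r t) {h : ℤ} (h0 : 0 ≤ h) (h1 : h ≤ B) :
    (s.set r t h).ok B := by
  intro j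
  by_cases e : j = r
  · subst e; simp [TS.set, h0, h1]
  · simpa [TS.set, e] using hs j

@[simp] lemma TS.scan_set (s : TS) (r t h) : (s.set r t h).scan r = t h := by
  simp [TS.set, TS.scan]

/-- A run that touches only tape `r`. -/
def R1 (x : List σ) (B r : ℕ) (p : TP σ) (t : ℤ → Sy) (h : ℤ) (t' : ℤ → Sy) (h' : ℤ) : Prop :=
  ∀ s : TS, s.ok B → Run x B p (s.set r t h) (s.set r t' h')

def wr (r : ℕ) (w : Sy → Sy) (d : Dir) : TP σ := .act r fun _ y => (w y, d, .S)

lemma r1_wr {r w d t} {h : ℤ} (h0 : 0 ≤ h) (h1 : h ≤ B) :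
    R1 x B r (wr r w d) t h (Function.update t h (w (t h))) (h + d.toInt) := by
  intro s hs
  have := run_act (x := x) (r := r) (f := fun _ y => (w y, d, .S)) (TS.ok_set hs r t h0 h1)
  have e : (s.set r t h).app x.length r (w ((s.set r t h).scan r), d, .S) =
      s.set r (Function.update t h (w (t h))) (h + d.toInt) := by
    simp [TS.app, TS.set, TS.scan, inMove]
  rwa [e] at this

lemma R1.cg {r} {p : TP σ} {t h t' h' u k u' k'} (H : R1 x B r p t h t' h') (e1 : u = t) (e2 : k = h)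
    (e3 : u' = t') (e4 : k' = h') : R1 x B r p u k u' k' := by
  subst e1 e2 e3 e4; exact H

lemma r1_mv {r d t} {h : ℤ} (h0 : 0 ≤ h) (h1 : h ≤ B) :
    R1 x B r (wr r id d) t h t (h + d.toInt) := by
  have := r1_wr (x := x) (r := r) (w := id) (d := d) (t := t) h0 h1
  simpa using this

lemma r1_seq {r} {a b : TP σ} {t h t1 h1 t2 h2} (ha : R1 x B r a t h t1 h1)
    (hb : R1 x B r b t1 h1 t2 h2) : R1 x B r (.seq a b) t h t2 h2 :=
  fun s hs => run_seq (ha s hs) (hb s hs)

def swR (r : ℕ) (c c' : Bool) : TP σ :=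
  .loop r (fun _ y => decide (y = some c)) (wr r (fun _ => some c') .R)

def swL (r : ℕ) : TP σ := .loop r (fun _ y => y.isSome) (wr r id .L)

lemma r1_swR {r c c'} (j : ℕ) : ∀ (t : ℤ → Sy) (h : ℤ), 0 ≤ h → h + j ≤ B →
    (∀ z, h ≤ z → z < h + j → t z = some c) → t (h + j) ≠ some c →
    R1 x B r (swR r c c') t h (fun z => if h ≤ z ∧ z < h + j then some c' else t z) (h + j) := by
  induction j with
  | zero =>
    intro t h h0 h1 _ h3 s hs
    have e : (fun z => if h ≤ z ∧ z < h + (0 : ℕ) then some c' else t z) = t := by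
      funext z; rw [if_neg (by omega)]
    rw [e]
    simp only [Nat.cast_zero, add_zero] at *
    exact run_loop_exit (TS.ok_set hs r t h0 h1) (by simpa using h3)
  | succ j ih =>
    intro t h h0 h1 h2 h3 s hs
    push_cast at *
    refine run_loop_step (TS.ok_set hs r t h0 (by omega)) (by simpa using h2 h le_rfl (by omega))
      (r1_wr h0 (by omega) s hs) ?_
    have := ih (Function.update t h (some c')) (h + 1) (by omega) (by omega)
      (fun z a b => by rw [Function.update_of_ne (by omega)]; exact h2 z (by omega) (by omega))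
      (by rw [Function.update_of_ne (by omega)]; rwa [add_assoc, add_comm 1])
    refine this.cg rfl rfl ?_ ?_ s hs
    · funext z
      by_cases e : z = h
      · subst e; rw [if_pos (by omega), if_neg (by omega)]; simp
      · rw [Function.update_of_ne e]
        by_cases e2 : h ≤ z ∧ z < h + (j + 1)
        · rw [if_pos e2, if_pos (by omega)]
        · rw [if_neg e2, if_neg (by omega)]
    · ring

lemma r1_swL {r} (t : ℤ → Sy) (h0 : t 0 = none) (j : ℕ) : (j : ℤ) ≤ B →
    (∀ z : ℤ, 1 ≤ z → z ≤ j → (t z).isSome) → R1 x B r (swL r) t j t 0 := by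
  induction j with
  | zero =>
    intro h1 _ s hs
    exact run_loop_exit (TS.ok_set hs r t le_rfl (by omega)) (by simp [h0])
  | succ j ih =>
    intro h1 h2 s hs
    push_cast at *
    refine run_loop_step (TS.ok_set hs r t (by omega) h1)
      (by simpa using h2 _ (by omega) le_rfl) (r1_mv (by omega) h1 s hs) ?_
    exact (ih (by omega) (fun z a b => h2 z a (by omega))).cg rfl (by simp [Dir.toInt]) rfl rfl s hs

def flp (r : ℕ) (c : Bool) : TP σ :=
  .seq (wr r id .R) (.seq (swR r c (!c)) (.seq (wr r (fun _ => some c) .L) (swL r)))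

lemma r1_flp {r c} (t : ℤ → Sy) (j : ℕ) (h0 : t 0 = none) (hj : j + 1 ≤ B)
    (h1 : ∀ z : ℤ, 1 ≤ z → z ≤ j → t z = some c) (h2 : t (1 + j) ≠ some c) :
    R1 x B r (flp r c) t 0
      (fun z => if 1 ≤ z ∧ z ≤ j then some (!c) else if z = 1 + j then some c else t z) 0 := by
  refine r1_seq (r1_mv le_rfl (by omega)) ?_
  refine r1_seq (r1_swR j t (0 + Dir.R.toInt) (by simp [Dir.toInt]) (by simp [Dir.toInt]; omega)
    (fun z a b => h1 z (by simpa [Dir.toInt] using a) (by simp [Dir.toInt] at b; omega))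
    (by simpa [Dir.toInt] using h2)) ?_
  refine r1_seq (r1_wr (by simp [Dir.toInt]; omega) (by simp [Dir.toInt]; omega)) ?_
  refine (r1_swL (x := x) (B := B) (r := r) _ ?_ j (by omega) ?_).cg ?_ ?_ rfl rfl
  · rw [if_neg (by omega), if_neg (by omega), h0]
  · intro z a b
    rw [if_pos ⟨a, b⟩]; rfl
  · funext z
    simp only [Dir.toInt, zero_add]
    by_cases e : z = 1 + j
    · subst e; rw [if_neg (by omega)]; simp
    · rw [Function.update_of_ne e, if_neg e]
      by_cases e2 : 1 ≤ z ∧ z ≤ j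
      · rw [if_pos e2, if_pos (by omega)]
      · rw [if_neg e2, if_neg (by omega)]
  · simp [Dir.toInt]

def Reg (B v : ℕ) (t : ℤ → Sy) : Prop :=
  ∃ l : ℕ, l < B ∧ v < 2 ^ l ∧
    ∀ i : ℤ, t i = if 1 ≤ i ∧ i ≤ l then some (v.testBit (i - 1).toNat) else none

lemma inc_bits (v : ℕ) : ∃ j, (∀ i < j, v.testBit i = true ∧ (v + 1).testBit i = false) ∧
    v.testBit j = false ∧ (v + 1).testBit j = true ∧ ∀ i, j < i → (v + 1).testBit i = v.testBit i := by
  induction v using Nat.strong_induction_on with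
  | _ v ih =>
    rcases Nat.mod_two_eq_zero_or_one v with h | h
    · refine ⟨0, by simp, by simp [Nat.testBit_zero]; omega, by simp [Nat.testBit_zero]; omega, ?_⟩
      intro i hi
      obtain ⟨i, rfl⟩ : ∃ k, i = k + 1 := ⟨i - 1, by omega⟩
      rw [Nat.testBit_add_one, Nat.testBit_add_one]; congr 1; omega
    · obtain ⟨j, a, b, c, d⟩ := ih (v / 2) (by omega)
      have e : (v + 1) / 2 = v / 2 + 1 := by omega
      refine ⟨j + 1, ?_, by rwa [Nat.testBit_add_one], by rwa [Nat.testBit_add_one, e], ?_⟩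
      · intro i hi
        rcases i with _ | i
        · simp [Nat.testBit_zero]; omega
        · rw [Nat.testBit_add_one, Nat.testBit_add_one, e]; exact a i (by omega)
      · intro i hi
        obtain ⟨i, rfl⟩ : ∃ k, i = k + 1 := ⟨i - 1, by omega⟩
        rw [Nat.testBit_add_one, Nat.testBit_add_one, e]; exact d i (by omega)

lemma lt_of_testBit {v l i : ℕ} (h : v < 2 ^ l) (hi : v.testBit i = true) : i < l := by
  by_contra hc
  have := Nat.testBit_lt_two_pow (lt_of_lt_of_le h (Nat.pow_le_pow_right (by norm_num) (not_lt.1 hc)))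
  simp_all

lemma r1_inc {r v t} (h : Reg B v t) (hv : v + 1 < 2 ^ (B - 1)) :
    ∃ t', R1 x B r (flp r true) t 0 t' 0 ∧ Reg B (v + 1) t' := by
  obtain ⟨l, hl, hv2, ht⟩ := h
  obtain ⟨j, a, b, c, d⟩ := inc_bits v
  have hj := lt_of_testBit hv c
  have hjl : j ≤ l := by
    rcases j with _ | j
    · omega
    · have := lt_of_testBit hv2 (a j (by omega)).1; omega
  refine ⟨_, r1_flp t j (by simp [ht]) (by omega) ?_ ?_, max l (j + 1), by omega, ?_, ?_⟩
  · intro z z1 z2
    rw [ht, if_pos ⟨z1, by omega⟩, (a _ (by omega)).1]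
  · rw [ht]; split_ifs
    · simp [b]
    · simp
  · apply Nat.lt_pow_two_of_testBit
    intro i hi
    rw [d i (by omega)]
    exact Nat.testBit_lt_two_pow (lt_of_lt_of_le hv2 (Nat.pow_le_pow_right (by norm_num) (by omega)))
  · intro z
    simp only []
    by_cases e1 : 1 ≤ z ∧ z ≤ j
    · rw [if_pos e1, if_pos (by push_cast; omega), (a _ (by omega)).2]; rfl
    · rw [if_neg e1]
      by_cases e2 : z = 1 + j
      · subst e2; rw [if_pos rfl, if_pos (by push_cast; omega)]; simp [c]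
      · rw [if_neg e2, ht]
        by_cases e3 : 1 ≤ z ∧ z ≤ l
        · rw [if_pos e3, if_pos (by push_cast; omega), d _ (by omega)]
        · rw [if_neg e3, if_neg (by push_cast; omega)]

lemma r1_dec {r v t} (h : Reg B (v + 1) t) : ∃ t', R1 x B r (flp r false) t 0 t' 0 ∧ Reg B v t' := by
  obtain ⟨l, hl, hv2, ht⟩ := h
  obtain ⟨j, a, b, c, d⟩ := inc_bits v
  have hj := lt_of_testBit hv2 c
  refine ⟨_, r1_flp t j (by simp [ht]) (by omega) ?_ ?_, l, by omega, by omega, ?_⟩
  · intro z z1 z2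
    rw [ht, if_pos ⟨z1, by omega⟩, (a _ (by omega)).2]
  · rw [ht, if_pos (by omega)]; simp [c]
  · intro z
    simp only []
    by_cases e1 : 1 ≤ z ∧ z ≤ j
    · rw [if_pos e1, if_pos (by omega), (a _ (by omega)).1]; rfl
    · rw [if_neg e1]
      by_cases e2 : z = 1 + j
      · subst e2; rw [if_pos rfl, if_pos (by omega)]; simp [b]
      · rw [if_neg e2, ht]
        by_cases e3 : 1 ≤ z ∧ z ≤ l
        · rw [if_pos e3, if_pos e3, d _ (by omega)]
        · rw [if_neg e3, if_neg e3]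

def scn (r : ℕ) : TP σ := .seq (wr r id .R) (swR r false false)

def hom (r : ℕ) : TP σ := .seq (wr r id .L) (swL r)

lemma r1_scn {r v t} (h : Reg B v t) : ∃ j : ℕ, j + 1 ≤ B ∧ R1 x B r (scn r) t 0 t (1 + j) ∧
    R1 x B r (hom r) t (1 + j) t 0 ∧ (t (1 + j) = some true ↔ v ≠ 0) := by
  obtain ⟨l, hl, hv2, ht⟩ := h
  have : ∃ j ≤ l, (∀ i < j, v.testBit i = false) ∧ t (1 + j) ≠ some false ∧
      (t (1 + j) = some true ↔ v ≠ 0) := by
    rcases v with _ | v
    · refine ⟨l, le_rfl, by simp, ?_, ?_⟩ <;> (rw [ht, if_neg (by omega)]; simp)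
    · obtain ⟨j, a, b, c, d⟩ := inc_bits v
      have hj := lt_of_testBit hv2 c
      refine ⟨j, by omega, fun i hi => (a i hi).2, ?_, ?_⟩ <;> (rw [ht, if_pos (by omega)]; simp [c])
  obtain ⟨j, a, b, c, d⟩ := this
  have e : ∀ z : ℤ, 1 ≤ z → z ≤ j → t z = some false := fun z z1 z2 => by
    rw [ht, if_pos ⟨z1, by omega⟩, b _ (by omega)]
  refine ⟨j, by omega, r1_seq (r1_mv le_rfl (by omega)) ?_, r1_seq (r1_mv (by omega) (by omega)) ?_, d⟩
  · refine (r1_swR (x := x) (B := B) (r := r) (c := false) (c' := false) j t 1 (by omega) (by omega)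
      (fun z z1 z2 => e z z1 (by omega)) c).cg rfl rfl ?_ rfl
    funext z
    split_ifs with hz
    · exact e z hz.1 (by omega)
    · rfl
  · exact (r1_swL (x := x) (B := B) (r := r) t (by simp [ht]) j (by omega)
      (fun z z1 z2 => by rw [e z z1 z2]; rfl)).cg rfl (by simp [Dir.toInt]) rfl rfl

def Rep (B : ℕ) (g : ℕ → ℕ) (ip : ℕ) (s : TS) : Prop :=
  (∀ r, Reg B (g r) (s.tape r)) ∧ (∀ r, s.head r = 0) ∧ s.ip = ip

lemma Rep.ok {g ip s} (h : Rep B g ip s) : s.ok B := fun j => by simp [h.2.1 j]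

lemma Rep.set {g ip s} (h : Rep B g ip s) (r : ℕ) {v t} (ht : Reg B v t) :
    Rep B (Function.update g r v) ip (s.set r t 0) := by
  refine ⟨fun j => ?_, fun j => ?_, h.2.2⟩
  · by_cases e : j = r
    · subst e; simpa [TS.set] using ht
    · simpa [TS.set, e] using h.1 j
  · by_cases e : j = r
    · subst e; simp [TS.set]
    · simpa [TS.set, e] using h.2.1 j

lemma Rep.eq_set {g ip s} (h : Rep B g ip s) (r : ℕ) : s.set r (s.tape r) 0 = s := by
  rw [← h.2.1 r, TS.set_self]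

/-- Register-level effect of a program. -/
def Does (x : List σ) (B : ℕ) (p : TP σ) (g : ℕ → ℕ) (ip : ℕ) (g' : ℕ → ℕ) (ip' : ℕ) : Prop :=
  ∀ s, Rep B g ip s → ∃ s', Run x B p s s' ∧ Rep B g' ip' s'

lemma does_seq {a b : TP σ} {g i g1 i1 g2 i2} (ha : Does x B a g i g1 i1)
    (hb : Does x B b g1 i1 g2 i2) : Does x B (.seq a b) g i g2 i2 := by
  intro s hs
  obtain ⟨s1, a1, a2⟩ := ha s hs
  obtain ⟨s2, b1, b2⟩ := hb s1 a2
  exact ⟨s2, run_seq a1 b1, b2⟩

lemma does_inc {r g i} (hv : g r + 1 < 2 ^ (B - 1)) :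
    Does x B (flp r true) g i (Function.update g r (g r + 1)) i := by
  intro s hs
  obtain ⟨t', a, b⟩ := r1_inc (x := x) (r := r) (hs.1 r) hv
  have := a s hs.ok
  rw [hs.eq_set] at this
  exact ⟨_, this, hs.set r b⟩

lemma does_dec {r g i} (hv : g r ≠ 0) :
    Does x B (flp r false) g i (Function.update g r (g r - 1)) i := by
  intro s hs
  have h1 := hs.1 r
  rw [show g r = g r - 1 + 1 by omega] at h1
  obtain ⟨t', a, b⟩ := r1_dec (x := x) (r := r) h1
  have := a s hs.ok
  rw [hs.eq_set] at this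
  exact ⟨_, this, hs.set r b⟩

def isT : InSym σ → Sy → Bool := fun _ y => decide (y = some true)

def whl (r : ℕ) (b : TP σ) : TP σ :=
  .seq (scn r) (.seq (.loop r isT (.seq (hom r) (.seq b (scn r)))) (hom r))

def Scanned (x : List σ) (B r : ℕ) (g : ℕ → ℕ) (i : ℕ) (s1 : TS) : Prop :=
  s1.ok B ∧ (s1.scan r = some true ↔ g r ≠ 0) ∧ ∃ s0, Run x B (hom r) s1 s0 ∧ Rep B g i s0

lemma scn_spec {r g i s} (hs : Rep B g i s) : ∃ s1, Run x B (scn r) s s1 ∧ Scanned x B r g i s1 := by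
  obtain ⟨j, a, b, c, d⟩ := r1_scn (x := x) (r := r) (hs.1 r)
  have b1 := b s hs.ok
  have c1 := c s hs.ok
  rw [hs.eq_set] at b1 c1
  exact ⟨_, b1, TS.ok_set hs.ok _ _ (by omega) (by omega), by simpa using d, s, c1, hs⟩

lemma does_whl {r} {b : TP σ} (n : ℕ) (g : ℕ → ℕ → ℕ) (i : ℕ → ℕ)
    (h : ∀ m < n, g m r ≠ 0 ∧ Does x B b (g m) (i m) (g (m + 1)) (i (m + 1))) (hn : g n r = 0) :
    Does x B (whl r b) (g 0) (i 0) (g n) (i n) := by
  have key : ∀ m ≤ n, ∀ s1, Scanned x B r (g (n - m)) (i (n - m)) s1 → ∃ s2,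
      Run x B (.loop r isT (.seq (hom r) (.seq b (scn r)))) s1 s2 ∧ Scanned x B r (g n) (i n) s2 := by
    intro m
    induction m with
    | zero =>
      intro _ s1 h1
      refine ⟨s1, run_loop_exit h1.1 ?_, h1⟩
      have := h1.2.1
      simp only [Nat.sub_zero, hn] at this
      simpa [isT] using this
    | succ m ih =>
      intro hm s1 ⟨h1, h2, s0, h3, h4⟩
      obtain ⟨k1, k2⟩ := h (n - (m + 1)) (by omega)
      obtain ⟨s2, k3, k4⟩ := k2 s0 h4
      rw [show n - (m + 1) + 1 = n - m by omega] at k4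
      obtain ⟨s3, k5, k6⟩ := scn_spec (x := x) (r := r) k4
      obtain ⟨s4, k7, k8⟩ := ih (by omega) s3 k6
      exact ⟨s4, run_loop_step h1 (by simpa [isT] using h2.2 k1) (run_seq h3 (run_seq k3 k5)) k7, k8⟩
  intro s hs
  obtain ⟨s1, a1, a2⟩ := scn_spec (x := x) (r := r) hs
  obtain ⟨s2, b1, -, -, s3, b2, b3⟩ := key n le_rfl s1 (by simpa using a2)
  exact ⟨s3, run_seq a1 (run_seq b1 b2), b3⟩

def inMv (d : Dir) : TP σ := .act 0 fun _ y => (y, .S, d)

lemma does_inMv {d g i} : Does x B (inMv d) g i g (inMove x.length i d) := by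
  intro s hs
  refine ⟨_, run_act hs.ok, ?_⟩
  obtain ⟨a, b, rfl⟩ := hs
  refine ⟨?_, ?_, rfl⟩ <;> simpa [TS.app, TS.scan, Dir.toInt]

lemma does_iteIn {c : InSym σ → Bool} {a b : TP σ} {g i g' i'}
    (h : Does x B (if c (inAt x i) then a else b) g i g' i') :
    Does x B (.ite 0 (fun y _ => c y) a b) g i g' i' := by
  intro s hs
  obtain ⟨s', h1, h2⟩ := h s hs
  refine ⟨s', ?_, h2⟩
  by_cases hc : c (inAt x i) = true
  · rw [if_pos hc] at h1; exact run_ite_pos hs.ok (by rwa [hs.2.2]) h1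
  · rw [if_neg hc] at h1; exact run_ite_neg hs.ok (by rw [hs.2.2]; simpa using hc) h1

def notL : InSym σ → Bool
  | .lft => false
  | _ => true

def inHome : TP σ := .loop 0 (fun y _ => notL y) (inMv .L)

lemma does_inHome {g} (i : ℕ) : Does x B inHome g i g 0 := by
  induction i with
  | zero => exact fun s hs => ⟨s, run_loop_exit hs.ok (by rw [hs.2.2]; rfl), hs⟩
  | succ i ih =>
    intro s hs
    obtain ⟨s1, a1, a2⟩ := does_inMv (x := x) (d := .L) s hs
    obtain ⟨s2, b1, b2⟩ := ih s1 a2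
    refine ⟨s2, run_loop_step hs.ok ?_ a1 b1, b2⟩
    rw [hs.2.2, inAt]
    cases x[i]? <;> rfl

lemma rep_init (hB : 0 < B) : Rep B (fun _ => 0) 0 TS.init :=
  ⟨fun _ => ⟨0, hB, by simp, fun i => by rw [if_neg (by omega)]; rfl⟩, fun _ => rfl, rfl⟩

end Vale.Agent.P312
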