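import Vale.Agent.P312.Code

/-! Correctness of the local simulation. -/

namespace Vale.Agent.P312

lemma cp_three {W a b c d e f : ℕ} (ha : 0 < a) (hc : 0 < c) (he : 0 < e)
    (h : cp W a b * cp W c d * cp W e f < W) : a ^ b * c ^ d * e ^ f < W := by
  have k : ∀ {x y}, 0 < x → 0 < cp W x y := fun hx => lt_min (pow_pos hx _) (by omega)
  have k2 : ∀ {x y}, cp W x y < W → cp W x y = x ^ y := fun h => by
    unfold cp at *; omega
  have h1 := k (y := b) ha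
  have h2 := k (y := d) hc
  have h3 := k (y := f) he
  have h4 := Nat.mul_pos h1 h2
  have e1 := k2 (x := a) (y := b) (by nlinarith)
  have e2 := k2 (x := c) (y := d) (by nlinarith)
  have e3 := k2 (x := e) (y := f) (by nlinarith)
  rwa [e1, e2, e3] at h

lemma rd_of_bits {z lo sz C : ℕ} (hC : C < 2 ^ sz)
    (h : ∀ k, lo ≤ k → k < lo + sz → (z.testBit k = true ↔ C.testBit (k - lo) = true)) :
    rd z lo sz = C := by
  apply Nat.eq_of_testBit_eq
  intro i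
  rw [rd, Nat.testBit_mod_two_pow, Nat.testBit_div_two_pow]
  by_cases hi : i < sz
  · have := h (i + lo) (by omega) (by omega)
    rw [Nat.add_sub_cancel] at this
    simp only [hi, decide_true, Bool.true_and]
    exact Bool.eq_iff_iff.2 this
  · rw [Nat.testBit_lt_two_pow (lt_of_lt_of_le hC (Nat.pow_le_pow_right (by norm_num) (by omega)))]
    simp [hi]

lemma dig_rd {z w s n e : ℕ} (he : e < n) :
    dig (rd z (s * w) (n * w)) (2 ^ w) e = dig z (2 ^ w) (s + e) := by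
  apply Nat.eq_of_testBit_eq
  intro i
  simp only [dig, rd, ← pow_mul, Nat.testBit_mod_two_pow, Nat.testBit_div_two_pow]
  by_cases hi : i < w
  · have : i + w * e < n * w := by nlinarith
    simp only [hi, this, decide_true, Bool.true_and]
    congr 1; ring
  · simp [hi]

lemma slot_ne {a x y : ℕ} (h1 : x < y) (h2 : y ≤ x + a) : x % (a + 1) ≠ y % (a + 1) := by
  intro h
  have := Nat.eq_zero_of_dvd_of_lt (Nat.dvd_of_mod_eq_zero (Nat.sub_mod_eq_zero_of_mod_eq h.symm))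
    (by omega)
  omega

lemma reg_eq {s t C k : ℕ} (h1 : s * C ≤ k) (h2 : k < s * C + C) (h3 : t * C ≤ k) (h4 : k < t * C + C) :
    s = t := by
  rcases lt_trichotomy s t with h | h | h
  · nlinarith
  · exact h
  · nlinarith

namespace OneTape

variable {σ : Type} {M : OneTape σ}

lemma cq_lt (q : M.Q) : M.cq q < M.nq := Fin.is_lt _
lemma cg_lt (q : M.Γ) : M.cg q < M.ng := Fin.is_lt _
lemma dq_cq (q : M.Q) : M.dq (M.cq q) = q := by rw [dq, dif_pos (cq_lt q)]; simp [cq]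
lemma dg_cg (q : M.Γ) : M.dg (M.cg q) = q := by rw [dg, dif_pos (cg_lt q)]; simp [cg]

structure Fx (M : OneTape σ) (θ : ℕ) : Prop where
  ha : 1 ≤ pa θ
  hL : pA θ * pa θ * pt θ + 1 ≤ pL θ
  hq : (pL θ + pA θ * pa θ * pt θ + 1) * M.nq ≤ pG θ
  hg : M.ng ≤ pG θ
  hp : (pp θ).Prime
  hM : pa θ * pM θ < pp θ
  hW : (pS θ * pP θ) ^ (pA θ + 1) * (pY θ * pP θ) ^ (pa θ + 1) * pp θ ^ pM θ < θ
  hpM : pp θ ^ pM θ < θ
  h2M : 2 ^ pM θ < θ
  hG : pG θ = 2 ^ pw θ
  hGb : pG θ ^ (pb θ + 1) ≤ θ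
  hGa : pG θ ^ (pa θ + 1) ≤ θ

variable {θ : ℕ}

lemma Valid.fx (h : M.Valid θ) : M.Fx θ := by
  obtain ⟨h1, h2, h3, h4, h5, h6, h7, h8⟩ := h
  have hp : 0 < pp θ := by omega
  have hP : 0 < pP θ := Nat.mul_pos (Nat.mul_pos (by omega) hp) (by omega)
  have hS : 0 < pS θ := Nat.mul_pos (by omega) (Nat.mul_pos hp hp)
  have hY : 0 < pY θ := Nat.mul_pos (by omega) (Nat.mul_pos hp hp)
  have hW := cp_three (Nat.mul_pos hS hP) (Nat.mul_pos hY hP) hp h8
  have a1 : pp θ ^ pM θ < θ := lt_of_le_of_lt (Nat.le_mul_of_pos_left _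
    (Nat.mul_pos (pow_pos (Nat.mul_pos hS hP) _) (pow_pos (Nat.mul_pos hY hP) _))) hW
  have a2 : 2 ^ pM θ < θ := lt_of_le_of_lt (Nat.pow_le_pow_left h5 _) a1
  have a3 : ∀ n, n ≤ pM θ → 2 ^ n ≤ θ := fun n hn =>
    (Nat.pow_le_pow_right (by norm_num) hn).trans a2.le
  have hb : 1 ≤ pb θ := Nat.mul_pos h1 h1
  have b1 : pw θ ≤ pb θ * pw θ := Nat.le_mul_of_pos_left _ hb
  have b2 : (pa θ + 1) * pw θ ≤ (pa θ + 1) * ((pa θ + 1) * pw θ) := Nat.le_mul_of_pos_left _ (by omega)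
  have a4 : pG θ = 2 ^ pw θ := min_eq_left (a3 _ (by unfold pM pX; omega))
  refine ⟨h1, h2, h3, h4, Nat.prime_def_lt.2 ⟨h5, fun m hm hd => h6 m hm (Nat.mod_eq_zero_of_dvd hd)⟩,
    h7, hW, a1, a2, a4, ?_, ?_⟩
  · rw [a4, ← pow_mul]; exact a3 _ (by unfold pM pX; rw [mul_add, mul_comm]; omega)
  · rw [a4, ← pow_mul]; exact a3 _ (by unfold pM pR pC; rw [mul_comm]; omega)

variable (M θ)

noncomputable def encB (j : ℕ) (c : M.Cfg) : ℕ :=
  bld (pG θ ^ pb θ) (pG θ) (pb θ) fun e => M.cg (c.tape ((j * pb θ + e : ℕ) - (pL θ : ℤ)))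

noncomputable def encG (c : M.Cfg) : ℕ := M.pos (pL θ) c * M.nq + M.cq c.q

/-- The configuration after `v` visits. -/
def cf (x : List σ) (v : ℕ) : M.Cfg := M.cv (pL θ) (pb θ) (pt θ) x v

variable {M θ}

lemma encG_div (c : M.Cfg) : M.encG θ c / M.nq = M.pos (pL θ) c := SM.mul_add_div' (cq_lt _)
lemma encG_mod (c : M.Cfg) : M.encG θ c % M.nq = M.cq c.q := Nat.mul_add_mod_of_lt (cq_lt _)

variable (h : M.Fx θ)
include h

lemma Fx.hb : 0 < pb θ := Nat.mul_pos h.ha h.ha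
lemma Fx.hG0 : 0 < pG θ := by rw [h.hG]; exact Nat.two_pow_pos _
lemma Fx.hGb' : pG θ ^ pb θ ≤ θ := (Nat.pow_le_pow_right h.hG0 (by omega)).trans h.hGb

lemma Fx.encB_spec (j c) : M.encB θ j c < pG θ ^ pb θ ∧
    ∀ e < pb θ, dig (M.encB θ j c) (pG θ) e = M.cg (c.tape ((j * pb θ + e : ℕ) - (pL θ : ℤ))) :=
  bld_spec (fun _ _ => (cg_lt _).trans_le h.hg) le_rfl

lemma Fx.encB_ext {j c} {f : ℕ → ℕ}
    (hf : ∀ e < pb θ, f e = M.cg (c.tape ((j * pb θ + e : ℕ) - (pL θ : ℤ)))) :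
    bld θ (pG θ) (pb θ) f = M.encB θ j c := by
  obtain ⟨a1, a2⟩ := bld_spec (W := θ) (f := f)
    (fun e he => by rw [hf e he]; exact (cg_lt _).trans_le h.hg) h.hGb'
  obtain ⟨b1, b2⟩ := h.encB_spec j c
  exact eq_of_dig a1 b1 fun e he => by rw [a2 e he, b2 e he, hf e he]

lemma Fx.lstep_spec (j) (c : M.Cfg) (h1 : 1 ≤ c.head + pL θ) (h2 : M.encG θ c < pG θ) :
    M.lstep θ j (M.encB θ j c * pG θ + M.encG θ c) =
      M.encB θ j (M.vstep (pL θ) (pb θ) j c) * pG θ + M.encG θ (M.vstep (pL θ) (pb θ) j c) := by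
  rw [lstep, SM.mul_add_div' h2, Nat.mul_add_mod_of_lt h2, encG_div, encG_mod, vstep, blk]
  split_ifs with hj
  swap
  · rfl
  have e0 := Nat.mod_lt (M.pos (pL θ) c) h.hb
  have e1 : j * pb θ + M.pos (pL θ) c % pb θ = M.pos (pL θ) c := by
    rw [← hj, mul_comm]; exact Nat.div_add_mod _ _
  have e2 : (M.pos (pL θ) c : ℤ) = c.head + pL θ := by unfold pos; omega
  rw [(h.encB_spec j c).2 _ e0, e1, e2, add_sub_cancel_right, lstep']
  have e3 : M.cq c.q * M.ng + M.cg (c.tape c.head) < M.nq * M.ng := by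
    have := cq_lt c.q
    have := cg_lt (c.tape c.head)
    nlinarith
  simp only [tab, if_pos e3, tq, tg, td, SM.mul_add_div' (cg_lt _), Nat.mul_add_mod_of_lt (cg_lt _),
    dq_cq, dg_cg]
  rw [step_eq, h.encB_ext]
  · unfold encG
    congr 3
    unfold pos at *
    simp only []
    cases (M.δ' c.q (c.tape c.head)).2.2 <;> simp only [Dir.code, Dir.toInt] <;> omega
  · intro e he
    simp only []
    split_ifs with h3
    · rw [h3, e1, e2, add_sub_cancel_right, Function.update_self]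
    · rw [Function.update_of_ne (by omega), (h.encB_spec j c).2 e he]

lemma Fx.encB_other {j j'} (hj : j' ≠ j) (c : M.Cfg) (h1 : 0 ≤ c.head + pL θ) :
    M.encB θ j' (M.vstep (pL θ) (pb θ) j c) = M.encB θ j' c := by
  rw [vstep]
  split_ifs with hb
  swap
  · rfl
  obtain ⟨a1, a2⟩ := h.encB_spec j' (M.step c)
  obtain ⟨b1, b2⟩ := h.encB_spec j' c
  refine eq_of_dig a1 b1 fun e he => ?_
  rw [a2 e he, b2 e he, step_eq]
  simp only []
  rw [Function.update_of_ne]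
  intro hh
  apply hj
  rw [← hb, blk, show M.pos (pL θ) c = j' * pb θ + e by unfold pos; omega, SM.mul_add_div' he]

lemma Fx.mid (x) {v i} (j) (hv : v < pA θ * pa θ) (hi : i ≤ pt θ) :
    1 ≤ ((M.vstep (pL θ) (pb θ) j)^[i] (M.cf θ x v)).head + pL θ ∧
      M.encG θ ((M.vstep (pL θ) (pb θ) j)^[i] (M.cf θ x v)) < pG θ := by
  have a1 := M.vstep_head (pL θ) (pb θ) j (M.cf θ x v) i
  have a2 := M.cv_head (pL θ) (pb θ) (pt θ) x v
  have a3 : v * pt θ + pt θ ≤ pA θ * pa θ * pt θ := by nlinarith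
  have a4 := h.hL
  have a5 := h.hq
  unfold cf at *
  refine ⟨by omega, ?_⟩
  set c := (M.vstep (pL θ) (pb θ) j)^[i] (M.cv (pL θ) (pb θ) (pt θ) x v)
  have : M.pos (pL θ) c ≤ pL θ + pA θ * pa θ * pt θ := by unfold pos; omega
  have := cq_lt c.q
  unfold encG
  nlinarith

lemma Fx.encG_lt (x) {v} (hv : v ≤ pA θ * pa θ) : M.encG θ (M.cf θ x v) < pG θ := by
  rcases v with _ | v
  · have := h.ha
    exact (h.mid x (v := 0) (i := 0) 0 (Nat.mul_pos (Nat.mul_pos (by omega) this) this) (by omega)).2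
  · rw [cf, cv_succ]
    exact (h.mid x _ hv le_rfl).2

lemma Fx.visit_spec (x) {v} (hv : v < pA θ * pa θ) :
    M.visitN θ (M.encB θ (M.blk (pL θ) (pb θ) (M.cf θ x v)) (M.cf θ x v)) (M.encG θ (M.cf θ x v)) =
      M.encB θ (M.blk (pL θ) (pb θ) (M.cf θ x v)) (M.cf θ x (v + 1)) * pG θ +
        M.encG θ (M.cf θ x (v + 1)) := by
  set j := M.blk (pL θ) (pb θ) (M.cf θ x v) with hj
  rw [visitN, encG_div, ← blk, ← hj]
  refine (lp_ind (fun i => M.encB θ j ((M.vstep (pL θ) (pb θ) j)^[i] (M.cf θ x v)) * pG θ +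
    M.encG θ ((M.vstep (pL θ) (pb θ) j)^[i] (M.cf θ x v))) _ rfl fun i hi => ⟨?_, ?_⟩).trans ?_
  · obtain ⟨a1, a2⟩ := h.mid x j hv hi.le
    rw [h.lstep_spec j _ a1 a2, Function.iterate_succ_apply']
  · have a1 := (h.mid x j hv (show i + 1 ≤ _ from hi)).2
    have a2 := (h.encB_spec j ((M.vstep (pL θ) (pb θ) j)^[i + 1] (M.cf θ x v))).1
    have a3 := h.hGb
    rw [pow_succ] at a3
    nlinarith
  · rw [cf.eq_1 M θ x (v + 1), cv_succ]; rfl

lemma Fx.rstep_spec (x j) {v} (hv : v < pA θ * pa θ) :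
    M.rstep θ j (M.encB θ j (M.cf θ x v)) (M.encG θ (M.cf θ x v)) = M.encB θ j (M.cf θ x (v + 1)) := by
  rw [rstep, encG_div, ← blk]
  split_ifs with hj
  · subst hj
    rw [h.visit_spec x hv, SM.mul_add_div' (h.encG_lt x hv)]
  · rw [cf.eq_1 M θ x (v + 1), cv_succ, visit, ← cf]
    have : ∀ i ≤ pt θ, M.encB θ j ((M.vstep (pL θ) (pb θ) (M.blk (pL θ) (pb θ) (M.cf θ x v)))^[i]
        (M.cf θ x v)) = M.encB θ j (M.cf θ x v) := by
      intro i
      induction i with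
      | zero => exact fun _ => rfl
      | succ i ih =>
        intro hi
        rw [Function.iterate_succ_apply', h.encB_other (Ne.symm hj) _
          (by have := (h.mid x (M.blk (pL θ) (pb θ) (M.cf θ x v)) hv (show i ≤ _ by omega)).1; omega),
          ih (by omega)]
    exact (this _ le_rfl).symm

lemma Fx.initB_spec (x j) : M.initB x θ j = M.encB θ j (M.cf θ x 0) := by
  refine h.encB_ext fun e _ => ?_
  simp only [cf, cv, Function.iterate_zero, id, init]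
  by_cases hl : pL θ ≤ j * pb θ + e
  · rw [if_pos hl, if_pos (by omega), inAt,
      show (((j * pb θ + e : ℕ) : ℤ) - pL θ).toNat = j * pb θ + e - pL θ by omega]
    cases x[j * pb θ + e - pL θ]? <;> rfl
  · rw [if_neg hl, if_neg (by omega)]

omit h in
lemma encG_init (x) : M.encG θ (M.cf θ x 0) = pL θ * M.nq + M.cq M.q0 := by
  simp [encG, cf, cv, init, pos]

end OneTape

end Vale.Agent.P312
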