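import Vale.Agent.P312.Arith

/-! A stack machine whose whole state is one natural number. -/

namespace Vale.Agent.P312

inductive Path (f : ℕ → ℕ) (W : ℕ) : ℕ → ℕ → Prop
  | refl (s) : Path f W s s
  | cons {s s'} : s < W → Path f W (f s) s' → Path f W s s'

lemma Path.trans {f W a b c} (h1 : Path f W a b) (h2 : Path f W b c) : Path f W a c := by
  induction h1 with
  | refl => exact h2
  | cons h _ ih => exact .cons h (ih h2)

lemma Path.mono {f W W' a b} (h1 : Path f W a b) (h : W ≤ W') : Path f W' a b := by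
  induction h1 with
  | refl => exact .refl _
  | cons h' _ ih => exact .cons (by omega) ih

lemma Path.run {f W a b} (h1 : Path f W a b) (hb : f b = b) (hW : b < W) :
    lp W a W (fun _ s => f s) = b := by
  have key : (∀ i, f^[i] a < W) ∧ ∃ k, f^[k] a = b := by
    induction h1 with
    | refl => exact ⟨fun i => by rwa [Function.iterate_fixed hb], 0, rfl⟩
    | cons h _ ih =>
      obtain ⟨h1, k, h2⟩ := ih hb hW
      exact ⟨fun i => by cases i with
        | zero => exact h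
        | succ i => exact h1 i, k + 1, h2⟩
  obtain ⟨h1, k, h2⟩ := key
  refine (lp_ind (fun i => f^[i] a) W rfl fun i _ =>
    ⟨(Function.iterate_succ_apply' f i a).symm, (h1 _).le⟩).trans ?_
  obtain ⟨i, hi, j, hj, hij, e⟩ := Finset.exists_ne_map_eq_of_card_lt_of_maps_to
    (s := Finset.range (W + 1)) (t := Finset.range W) (by simp) (f := fun i => f^[i] a)
    (fun i _ => by simpa using h1 i)
  wlog hlt : i < j generalizing i j
  · exact this j hj i hi hij.symm e.symm (by omega)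
  have per : ∀ t, f^[t * (j - i) + i] a = f^[i] a := by
    intro t
    induction t with
    | zero => simp
    | succ t ih =>
      rw [show (t + 1) * (j - i) + i = (j - i) + (t * (j - i) + i) by ring,
        Function.iterate_add_apply, ih, ← Function.iterate_add_apply, show j - i + i = j by omega]
      exact e.symm
  have e1 : f^[i] a = b := by
    obtain ⟨d, hd⟩ : ∃ d, k * (j - i) + i = d + k :=
      ⟨k * (j - i) + i - k, by have : k * 1 ≤ k * (j - i) := Nat.mul_le_mul_left _ (by omega)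
                               omega⟩
    rw [← per k, hd, Function.iterate_add_apply, h2, Function.iterate_fixed hb]
  simp only [Finset.mem_range] at hj
  rw [show W = (W - i) + i by omega, Function.iterate_add_apply, e1, Function.iterate_fixed hb]

structure SM where
  Pb : ℕ
  Lb : ℕ
  Mm : ℕ
  base : ℕ → ℕ
  len : ℕ → ℕ
  tgt : ℕ → ℕ → ℕ
  actL : ℕ → ℕ → ℕ → ℕ → ℕ
  actM : ℕ → ℕ → ℕ → ℕ → ℕ

namespace SM

variable (S : SM)

def push (st P n l : ℕ) : ℕ := (st * S.base P + (n * S.Lb + l)) * S.Pb + P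

def step' (rest P n l m : ℕ) : ℕ :=
  if n < S.len P then
    S.push (S.push rest P (n + 1) (S.actL P n l m)) (S.tgt P n) 0 0 * S.Mm + S.actM P n l m
  else rest * S.Mm + m

def step'' (y P m : ℕ) : ℕ :=
  S.step' (y / S.base P) P (y % S.base P / S.Lb) (y % S.base P % S.Lb) m

def step (s : ℕ) : ℕ := S.step'' (s / S.Mm / S.Pb) (s / S.Mm % S.Pb) (s % S.Mm)

inductive Seg : ℕ → ℕ → ℕ → ℕ → ℕ → ℕ → ℕ → Prop
  | refl (P n l m) : Seg P n n l m l m
  | step {P n n' l m l1 m1 l' m'} : n < S.len P →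
      Seg (S.tgt P n) 0 (S.len (S.tgt P n)) 0 (S.actM P n l m) l1 m1 →
      Seg P (n + 1) n' (S.actL P n l m) m1 l' m' → Seg P n n' l m l' m'

def Call (P m m' : ℕ) : Prop := ∃ l, S.Seg P 0 (S.len P) 0 m l m'

variable {S}

lemma Seg.trans {P n n1 n2 l m l1 m1 l2 m2} (h1 : S.Seg P n n1 l m l1 m1)
    (h2 : S.Seg P n1 n2 l1 m1 l2 m2) : S.Seg P n n2 l m l2 m2 := by
  induction h1 with
  | refl => exact h2
  | step h a _ _ ih => exact .step h a (ih h2)

lemma Seg.one {P n l m m1} (h : n < S.len P) (hc : S.Call (S.tgt P n) (S.actM P n l m) m1) :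
    S.Seg P n (n + 1) l m (S.actL P n l m) m1 := by
  obtain ⟨l1, h1⟩ := hc
  exact .step h h1 (.refl _ _ _ _)

lemma Seg.loop {P} (I : ℕ → ℕ → ℕ → Prop) (pos : ℕ → ℕ) (J : ℕ)
    (h : ∀ j < J, ∀ l m, I j l m → ∃ l' m', S.Seg P (pos j) (pos (j + 1)) l m l' m' ∧ I (j + 1) l' m')
    {l m} (h0 : I 0 l m) : ∃ l' m', S.Seg P (pos 0) (pos J) l m l' m' ∧ I J l' m' := by
  induction J with
  | zero => exact ⟨l, m, .refl _ _ _ _, h0⟩
  | succ J ih =>
    obtain ⟨l1, m1, a1, a2⟩ := ih fun j hj => h j (by omega)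
    obtain ⟨l2, m2, b1, b2⟩ := h J (by omega) l1 m1 a2
    exact ⟨l2, m2, a1.trans b1, b2⟩

structure Ok (S : SM) (Good : ℕ → Prop) (Φ : ℕ → ℕ) : Prop where
  pb : ∀ P, Good P → P < S.Pb
  bs : ∀ P, Good P → (S.len P + 1) * S.Lb ≤ S.base P
  ph : ∀ P, Good P → S.base P * S.Pb ≤ Φ P
  gd : ∀ P, Good P → ∀ n < S.len P, Good (S.tgt P n) ∧ S.base P * S.Pb * Φ (S.tgt P n) ≤ Φ P
  hL : ∀ P n l m, l < S.Lb → S.actL P n l m < S.Lb
  hM : ∀ P n l m, m < S.Mm → S.actM P n l m < S.Mm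
  lb : 0 < S.Lb
  l0 : S.len 0 = 0

variable {Good : ℕ → Prop} {Φ : ℕ → ℕ}

lemma Ok.pay (h : S.Ok Good Φ) {P n l} (hP : Good P) (hn : n ≤ S.len P) (hl : l < S.Lb) :
    n * S.Lb + l < S.base P := by
  have := h.bs P hP
  nlinarith

lemma Ok.push_lt (h : S.Ok Good Φ) {st P n l} (hP : Good P) (hn : n ≤ S.len P) (hl : l < S.Lb) :
    S.push st P n l + 1 ≤ (st + 1) * (S.base P * S.Pb) := by
  have h1 := h.pay hP hn hl
  have h2 := h.pb P hP
  unfold push
  nlinarith

lemma mul_add_div' {a b c : ℕ} (h : c < b) : (a * b + c) / b = a := by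
  rw [mul_comm, Nat.mul_add_div (by omega), Nat.div_eq_of_lt h]; rfl

lemma Ok.step_eq (h : S.Ok Good Φ) {st P n l m} (hP : Good P) (hn : n ≤ S.len P) (hl : l < S.Lb)
    (hm : m < S.Mm) : S.step (S.push st P n l * S.Mm + m) = S.step' st P n l m := by
  have h1 := h.pay hP hn hl
  have h2 := h.pb P hP
  simp only [step, step'', push, mul_add_div' hm, mul_add_div' h1, mul_add_div' h2, mul_add_div' hl,
    Nat.mul_add_mod_of_lt hm, Nat.mul_add_mod_of_lt h1, Nat.mul_add_mod_of_lt h2,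
    Nat.mul_add_mod_of_lt hl]

lemma Ok.st_lt (h : S.Ok Good Φ) {st P n l m} (hP : Good P) (hn : n ≤ S.len P) (hl : l < S.Lb)
    (hm : m < S.Mm) : S.push st P n l * S.Mm + m < (st + 1) * Φ P * S.Mm := by
  have h1 := (h.push_lt (st := st) hP hn hl).trans (Nat.mul_le_mul_left _ (h.ph P hP))
  nlinarith

lemma Ok.sim (h : S.Ok Good Φ) {P n n' l m l' m'} (hs : S.Seg P n n' l m l' m') :
    Good P → n' ≤ S.len P → l < S.Lb → m < S.Mm → ∀ st, l' < S.Lb ∧ m' < S.Mm ∧
      Path S.step ((st + 1) * Φ P * S.Mm) (S.push st P n l * S.Mm + m)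
        (S.push st P n' l' * S.Mm + m') := by
  induction hs with
  | refl => exact fun _ _ hl hm _ => ⟨hl, hm, .refl _⟩
  | @step P n n' l m l1 m1 l' m' hn _ _ ih1 ih2 =>
    intro hP hn' hl hm st
    obtain ⟨g1, g2⟩ := h.gd P hP n hn
    have hl2 := h.hL P n l m hl
    obtain ⟨a1, a2, a3⟩ := ih1 g1 le_rfl h.lb (h.hM P n l m hm) (S.push st P (n + 1) (S.actL P n l m))
    obtain ⟨b1, b2, b3⟩ := ih2 hP hn' hl2 a2 st
    have bd : (S.push st P (n + 1) (S.actL P n l m) + 1) * Φ (S.tgt P n) * S.Mm ≤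
        (st + 1) * Φ P * S.Mm := by
      refine Nat.mul_le_mul_right _ ?_
      calc _ ≤ (st + 1) * (S.base P * S.Pb) * Φ (S.tgt P n) :=
            Nat.mul_le_mul_right _ (h.push_lt hP hn hl2)
        _ ≤ _ := by rw [mul_assoc]; exact Nat.mul_le_mul_left _ g2
    refine ⟨b1, b2, .cons (h.st_lt hP hn.le hl hm) ?_⟩
    rw [h.step_eq hP hn.le hl hm, step', if_pos hn]
    refine (a3.mono bd).trans (.cons ((h.st_lt g1 le_rfl a1 a2).trans_le bd) ?_)
    rw [h.step_eq g1 le_rfl a1 a2, step', if_neg (lt_irrefl _)]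
    exact b3

theorem Ok.run (h : S.Ok Good Φ) {P m' W} (hP : Good P) (hc : S.Call P 0 m') (hM : 0 < S.Mm)
    (hW : Φ P * S.Mm ≤ W) : lp W (S.push 0 P 0 0 * S.Mm) W (fun _ s => S.step s) = m' := by
  obtain ⟨l, hs⟩ := hc
  obtain ⟨a1, a2, a3⟩ := h.sim hs hP le_rfl h.lb hM 0
  have b := h.st_lt (st := 0) hP le_rfl a1 a2
  simp only [zero_add, one_mul, add_zero] at a3 b
  refine Path.run ((a3.mono hW).trans (.cons (by omega) ?_)) ?_ (by omega)
  · rw [h.step_eq hP le_rfl a1 a2, step', if_neg (lt_irrefl _)]; simpa using Path.refl _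
  · simp [step, step'', step', Nat.div_eq_of_lt a2, Nat.mod_eq_of_lt a2, h.l0]

end SM

end Vale.Agent.P312
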