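import Vale.Agent.P312.Defs
import Mathlib.Tactic

/-! Structured tape programs and their compilation to multitape machines. -/

namespace Vale.Agent.P312

abbrev Sy := Option Bool

/-- Structured tape programs; each action or test looks at one work tape and the input tape. -/
inductive TP (σ : Type)
  | act (r : ℕ) (f : InSym σ → Sy → Sy × Dir × Dir)
  | seq (a b : TP σ)
  | loop (r : ℕ) (c : InSym σ → Sy → Bool) (b : TP σ)
  | ite (r : ℕ) (c : InSym σ → Sy → Bool) (a b : TP σ)

@[ext] structure TS where
  tape : ℕ → ℤ → Sy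
  head : ℕ → ℤ
  ip : ℕ

variable {σ : Type}

def TS.scan (s : TS) (r : ℕ) : Sy := s.tape r (s.head r)

def TS.app (n : ℕ) (s : TS) (r : ℕ) (a : Sy × Dir × Dir) : TS where
  tape := Function.update s.tape r (Function.update (s.tape r) (s.head r) a.1)
  head := Function.update s.head r (s.head r + a.2.1.toInt)
  ip := inMove n s.ip a.2.2

def idle (g : Sy) : Sy × Dir × Dir := (g, .S, .S)

lemma TS.app_idle (n : ℕ) (s : TS) (r : ℕ) : s.app n r (idle (s.scan r)) = s := by
  cases s; simp [TS.app, idle, TS.scan, Dir.toInt, inMove]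

def TP.PC : TP σ → Type
  | .act _ _ => Unit
  | .seq a b => a.PC ⊕ b.PC
  | .loop _ _ b => Option b.PC
  | .ite _ _ a b => Option (a.PC ⊕ b.PC)

@[reducible] def TP.finPC : (p : TP σ) → Fintype p.PC
  | .act _ _ => inferInstanceAs (Fintype Unit)
  | .seq a b => @instFintypeSum _ _ a.finPC b.finPC
  | .loop _ _ b => @instFintypeOption _ b.finPC
  | .ite _ _ a b => @instFintypeOption _ (@instFintypeSum _ _ a.finPC b.finPC)

def TP.start : (p : TP σ) → p.PC
  | .act _ _ => ()
  | .seq a _ => Sum.inl a.start
  | .loop _ _ _ => none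
  | .ite _ _ _ _ => none

def TP.reg : (p : TP σ) → p.PC → ℕ
  | .act r _, _ => r
  | .seq a _, Sum.inl q => a.reg q
  | .seq _ b, Sum.inr q => b.reg q
  | .loop r _ _, none => r
  | .loop _ _ b, some q => b.reg q
  | .ite r _ _ _, none => r
  | .ite _ _ a _, some (Sum.inl q) => a.reg q
  | .ite _ _ _ b, some (Sum.inr q) => b.reg q

def TP.δ : (p : TP σ) → p.PC → InSym σ → Sy → Option p.PC × (Sy × Dir × Dir)
  | .act _ f, _, i, g => (none, f i g)
  | .seq a b, Sum.inl q, i, g =>
      (some (((a.δ q i g).1.map Sum.inl).getD (Sum.inr b.start)), (a.δ q i g).2)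
  | .seq _ b, Sum.inr q, i, g => ((b.δ q i g).1.map Sum.inr, (b.δ q i g).2)
  | .loop _ c b, none, i, g => (if c i g then some (some b.start) else none, idle g)
  | .loop _ _ b, some q, i, g => (some (b.δ q i g).1, (b.δ q i g).2)
  | .ite _ c a b, none, i, g =>
      (some (some (if c i g then Sum.inl a.start else Sum.inr b.start)), idle g)
  | .ite _ _ a _, some (Sum.inl q), i, g =>
      ((a.δ q i g).1.map fun q => some (Sum.inl q), (a.δ q i g).2)
  | .ite _ _ _ b, some (Sum.inr q), i, g =>
      ((b.δ q i g).1.map fun q => some (Sum.inr q), (b.δ q i g).2)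

def TS.ok (B : ℕ) (s : TS) : Prop := ∀ j, 0 ≤ s.head j ∧ s.head j ≤ B

/-- The transition taken at program point `q` in state `s`. -/
def TP.nxt (x : List σ) (p : TP σ) (q : p.PC) (s : TS) : Option p.PC × (Sy × Dir × Dir) :=
  p.δ q (inAt x s.ip) (s.scan (p.reg q))

inductive Reach (x : List σ) (B : ℕ) (p : TP σ) : p.PC → TS → TS → Prop
  | done {q s} : s.ok B → (p.nxt x q s).1 = none →
      Reach x B p q s (s.app x.length (p.reg q) (p.nxt x q s).2)
  | more {q q' s s'} : s.ok B → (p.nxt x q s).1 = some q' →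
      Reach x B p q' (s.app x.length (p.reg q) (p.nxt x q s).2) s' → Reach x B p q s s'

def Run (x : List σ) (B : ℕ) (p : TP σ) (s s' : TS) : Prop := Reach x B p p.start s s'

variable {x : List σ} {B : ℕ}

lemma run_act {r f} {s : TS} (h : s.ok B) :
    Run x B (.act r f) s (s.app x.length r (f (inAt x s.ip) (s.scan r))) :=
  Reach.done (p := .act r f) h rfl

lemma reach_seq_r {a b : TP σ} {q s s'} (h : Reach x B b q s s') :
    Reach x B (.seq a b) (Sum.inr q) s s' := by
  induction h with
  | done h1 h2 =>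
    exact Reach.done (p := .seq a b) (q := Sum.inr _) h1 (congrArg (Option.map Sum.inr) h2)
  | more h1 h2 _ ih =>
    exact Reach.more (p := .seq a b) (q := Sum.inr _) (q' := Sum.inr _) h1
      (congrArg (Option.map Sum.inr) h2) ih

lemma run_seq {a b : TP σ} {s s1 s2} (h1 : Run x B a s s1) (h2 : Run x B b s1 s2) :
    Run x B (.seq a b) s s2 := by
  have : ∀ q s s1, Reach x B a q s s1 → Run x B b s1 s2 → Reach x B (.seq a b) (Sum.inl q) s s2 := by
    intro q s s1 h
    induction h with
    | done h1 h2 =>
      intro h3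
      exact Reach.more (p := .seq a b) (q := Sum.inl _) (q' := Sum.inr b.start) h1
        (congrArg (fun o => some ((Option.map Sum.inl o).getD (Sum.inr b.start))) h2) (reach_seq_r h3)
    | more h1 h2 _ ih =>
      intro h3
      exact Reach.more (p := .seq a b) (q := Sum.inl _) (q' := Sum.inl _) h1
        (congrArg (fun o => some ((Option.map Sum.inl o).getD (Sum.inr b.start))) h2) (ih h3)
  exact this _ _ _ h1 h2

lemma run_loop_exit {r c} {b : TP σ} {s : TS} (h : s.ok B)
    (hc : c (inAt x s.ip) (s.scan r) = false) : Run x B (.loop r c b) s s := by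
  have := Reach.done (x := x) (p := .loop r c b) (q := none) h (by simp [TP.nxt, TP.δ, TP.reg, hc])
  rwa [show ((TP.loop r c b).nxt x none s).2 = idle (s.scan r) from rfl,
    show (TP.loop r c b).reg none = r from rfl, TS.app_idle] at this

lemma run_loop_step {r c} {b : TP σ} {s s1 s2 : TS} (h : s.ok B)
    (hc : c (inAt x s.ip) (s.scan r) = true) (h1 : Run x B b s s1)
    (h2 : Run x B (.loop r c b) s1 s2) : Run x B (.loop r c b) s s2 := by
  have : ∀ q s s1, Reach x B b q s s1 → Run x B (.loop r c b) s1 s2 →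
      Reach x B (.loop r c b) (some q) s s2 := by
    intro q s s1 h
    induction h with
    | done h1 h2 =>
      intro h3
      exact Reach.more (p := .loop r c b) (q := some _) (q' := none) h1 (congrArg some h2) h3
    | more h1 h2 _ ih =>
      intro h3
      exact Reach.more (p := .loop r c b) (q := some _) (q' := some _) h1 (congrArg some h2) (ih h3)
  refine Reach.more (p := .loop r c b) (q := none) (q' := some b.start) h
    (by simp only [TP.nxt, TP.δ, TP.reg, hc]; rfl) ?_
  rw [show ((TP.loop r c b).nxt x none s).2 = idle (s.scan r) from rfl,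
    show (TP.loop r c b).reg none = r from rfl, TS.app_idle]
  exact this _ _ _ h1 h2

lemma run_ite_pos {r c} {a b : TP σ} {s s1 : TS} (h : s.ok B)
    (hc : c (inAt x s.ip) (s.scan r) = true) (h1 : Run x B a s s1) :
    Run x B (.ite r c a b) s s1 := by
  have : ∀ q s s1, Reach x B a q s s1 → Reach x B (.ite r c a b) (some (Sum.inl q)) s s1 := by
    intro q s s1 h
    induction h with
    | done h1 h2 =>
      exact Reach.done (p := .ite r c a b) (q := some (Sum.inl _)) h1
        (congrArg (Option.map fun q => some (Sum.inl q)) h2)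
    | more h1 h2 _ ih =>
      exact Reach.more (p := .ite r c a b) (q := some (Sum.inl _)) (q' := some (Sum.inl _)) h1
        (congrArg (Option.map fun q => some (Sum.inl q)) h2) ih
  refine Reach.more (p := .ite r c a b) (q := none) (q' := some (Sum.inl a.start)) h
    (by simp only [TP.nxt, TP.δ, TP.reg, hc]; rfl) ?_
  rw [show ((TP.ite r c a b).nxt x none s).2 = idle (s.scan r) from rfl,
    show (TP.ite r c a b).reg none = r from rfl, TS.app_idle]
  exact this _ _ _ h1

lemma run_ite_neg {r c} {a b : TP σ} {s s1 : TS} (h : s.ok B)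
    (hc : c (inAt x s.ip) (s.scan r) = false) (h1 : Run x B b s s1) :
    Run x B (.ite r c a b) s s1 := by
  have : ∀ q s s1, Reach x B b q s s1 → Reach x B (.ite r c a b) (some (Sum.inr q)) s s1 := by
    intro q s s1 h
    induction h with
    | done h1 h2 =>
      exact Reach.done (p := .ite r c a b) (q := some (Sum.inr _)) h1
        (congrArg (Option.map fun q => some (Sum.inr q)) h2)
    | more h1 h2 _ ih =>
      exact Reach.more (p := .ite r c a b) (q := some (Sum.inr _)) (q' := some (Sum.inr _)) h1
        (congrArg (Option.map fun q => some (Sum.inr q)) h2) ih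
  refine Reach.more (p := .ite r c a b) (q := none) (q' := some (Sum.inr b.start)) h
    (by simp only [TP.nxt, TP.δ, TP.reg, hc]; rfl) ?_
  rw [show ((TP.ite r c a b).nxt x none s).2 = idle (s.scan r) from rfl,
    show (TP.ite r c a b).reg none = r from rfl, TS.app_idle]
  exact this _ _ _ h1

/-- Number of tapes used by a program with output tape `j0`. -/
def TP.nt (p : TP σ) (j0 : ℕ) : ℕ := (@Finset.univ _ p.finPC).sup p.reg + j0 + 1

lemma TP.reg_lt (p : TP σ) (j0 : ℕ) (q : p.PC) : p.reg q < p.nt j0 := by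
  have := Finset.le_sup (f := p.reg) (@Finset.mem_univ _ p.finPC q)
  unfold TP.nt; omega

def TP.rf (p : TP σ) (j0 : ℕ) (q : p.PC) : Fin (p.nt j0) := ⟨p.reg q, p.reg_lt j0 q⟩

def TP.jf (p : TP σ) (j0 : ℕ) : Fin (p.nt j0) := ⟨j0, by unfold TP.nt; omega⟩

/-- The machine of a program; it accepts when tape `j0` shows `some true` at the end. -/
def TP.machine (p : TP σ) (j0 : ℕ) : MultiTape σ where
  k := p.nt j0
  Q := Option p.PC ⊕ Bool
  Γ := Sy
  finQ := @instFintypeSum _ _ (@instFintypeOption _ p.finPC) inferInstance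
  finΓ := inferInstance
  blank := none
  q0 := Sum.inl (some p.start)
  halt := Sum.elim (fun _ => none) some
  δ q i g := match q with
    | Sum.inl (some q) => (Sum.inl (p.δ q i (g (p.rf j0 q))).1,
        fun j => if j = p.rf j0 q then ((p.δ q i (g (p.rf j0 q))).2.1, (p.δ q i (g (p.rf j0 q))).2.2.1)
          else (g j, .S), (p.δ q i (g (p.rf j0 q))).2.2.2)
    | Sum.inl none => (Sum.inr (decide (g (p.jf j0) = some true)), fun j => (g j, .S), .S)
    | Sum.inr b => (Sum.inr b, fun j => (g j, .S), .S)

def TP.cfg (p : TP σ) (j0 : ℕ) (q : Option p.PC ⊕ Bool) (s : TS) : (p.machine j0).Cfg :=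
  ⟨q, fun j => s.tape j.1, fun j => s.head j.1, s.ip⟩

lemma machine_st (p : TP σ) (j0 : ℕ) (q s) :
    (p.machine j0).step x (p.cfg j0 (Sum.inl (some q)) s) =
      p.cfg j0 (Sum.inl (p.nxt x q s).1) (s.app x.length (p.reg q) (p.nxt x q s).2) := by
  have e : ∀ j : Fin (p.nt j0), j = p.rf j0 q ↔ j.1 = p.reg q := fun j => Fin.ext_iff
  unfold MultiTape.step
  rw [if_neg (by simp [TP.cfg, TP.machine])]
  unfold TP.cfg
  congr 1
  · funext j
    by_cases h : j = p.rf j0 q
    · subst h
      simp [TP.machine, TS.app, TP.nxt, TS.scan, TP.rf]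
    · have h' := mt (e j).2 h
      simp only [TP.machine, TS.app, Function.update_of_ne h']
      erw [if_neg h]
      exact Function.update_eq_self _ _
  · funext j
    by_cases h : j = p.rf j0 q
    · subst h
      simp [TP.machine, TS.app, TP.nxt, TS.scan, TP.rf]
    · have h' := mt (e j).2 h
      simp only [TP.machine, TS.app, Function.update_of_ne h']
      erw [if_neg h]
      exact add_zero _

lemma machine_reach (p : TP σ) (j0 : ℕ) {q s s'} (h : Reach x B p q s s') :
    ∃ m, ((p.machine j0).step x)^[m] (p.cfg j0 (Sum.inl (some q)) s) = p.cfg j0 (Sum.inl none) s' ∧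
      ∀ i < m, ∀ j, 0 ≤ (((p.machine j0).step x)^[i] (p.cfg j0 (Sum.inl (some q)) s)).head j ∧
        (((p.machine j0).step x)^[i] (p.cfg j0 (Sum.inl (some q)) s)).head j ≤ B := by
  induction h with
  | done h1 h2 =>
    refine ⟨1, by rw [Function.iterate_one, machine_st, h2], ?_⟩
    intro i hi j
    obtain rfl : i = 0 := by omega
    exact h1 j.1
  | more h1 h2 _ ih =>
    obtain ⟨m, e1, e2⟩ := ih
    refine ⟨m + 1, by rw [Function.iterate_succ_apply, machine_st, h2, e1], ?_⟩
    intro i hi j
    rcases i with _ | i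
    · exact h1 j.1
    · rw [Function.iterate_succ_apply, machine_st, h2]; exact e2 i (by omega) j

def TS.init : TS := ⟨fun _ _ => none, fun _ => 0, 0⟩

theorem machine_spec (p : TP σ) (j0 : ℕ) {s' : TS} (h : Run x B p TS.init s') (hs : s'.ok B) :
    (∃ m, (p.machine j0).halt (((p.machine j0).step x)^[m] (p.machine j0).init).q =
      some (decide (s'.scan j0 = some true))) ∧
    ∃ V : Finset (Fin (p.machine j0).k × ℤ), (∀ (m : ℕ) j,
      (j, (((p.machine j0).step x)^[m] (p.machine j0).init).head j) ∈ V) ∧
      V.card = p.nt j0 * (B + 1) := by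
  obtain ⟨m, e1, e2⟩ := machine_reach p j0 h
  have hi : (p.machine j0).init = p.cfg j0 (Sum.inl (some p.start)) TS.init := rfl
  have s1 : (p.machine j0).step x (p.cfg j0 (Sum.inl none) s') =
      p.cfg j0 (Sum.inr (decide (s'.scan j0 = some true))) s' := by
    unfold MultiTape.step
    rw [if_neg (by simp [TP.cfg, TP.machine])]
    unfold TP.cfg
    congr 1
    · funext j; simp [TP.machine]
    · funext j; simp [TP.machine, Dir.toInt]
  have s2 : ∀ b, (p.machine j0).step x (p.cfg j0 (Sum.inr b) s') = p.cfg j0 (Sum.inr b) s' :=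
    fun b => rfl
  refine ⟨⟨m + 1, ?_⟩, Finset.univ ×ˢ Finset.Icc (0 : ℤ) B, ?_, ?_⟩
  · rw [Function.iterate_succ_apply', hi, e1, s1]; rfl
  · intro i j
    simp only [Finset.mem_product, Finset.mem_univ, true_and, Finset.mem_Icc]
    rw [hi]
    by_cases hlt : i < m
    · exact e2 i hlt j
    · obtain ⟨d, rfl⟩ : ∃ d, i = d + m := ⟨i - m, by omega⟩
      rw [Function.iterate_add_apply, e1]
      rcases d with _ | d
      · exact hs j.1
      · rw [Function.iterate_succ_apply, s1, Function.iterate_fixed (s2 _)]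
        exact hs j.1
  · rw [Finset.card_product, Finset.card_univ, Fintype.card_fin]; simp [TP.machine]

end Vale.Agent.P312
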